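import Crest.Agent.R115.Signs

/-!
Row 115: averages over boxes and the conservation of the trace.
-/

set_option autoImplicit false

open Finset

namespace Crest.Agent.R115

variable {I : Type} [Fintype I] [DecidableEq I]

/-- the half-open box -/
def box (R : I → ℕ) : Finset (I → ℕ) := Fintype.piFinset fun i => range (R i)

/-- the closed box -/
def InBox (R : I → ℕ) (z : I → ℤ) : Prop := ∀ i, 0 ≤ z i ∧ z i ≤ R i

/-- average over the box -/
noncomputable def avg (R : I → ℕ) : ((I → ℤ) → ℝ) →ₗ[ℝ] ℝ where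
  toFun G := (∑ ω ∈ box R, G fun i => ω i) / #(box R)
  map_add' G H := by simp only [Pi.add_apply, sum_add_distrib, add_div]
  map_smul' c G := by simp only [Pi.smul_apply, smul_eq_mul, ← mul_sum, RingHom.id_apply]; ring

theorem box_pos {R : I → ℕ} (hR : ∀ i, 0 < R i) : (0 : ℝ) < #(box R) :=
  mod_cast card_pos.2 ⟨0, Fintype.mem_piFinset.2 fun i => mem_range.2 (hR i)⟩

theorem abs_avg_le {R : I → ℕ} (hR : ∀ i, 0 < R i) {G : (I → ℤ) → ℝ} {μ : ℝ}
    (h : ∀ z, InBox R z → |G z| ≤ μ) : |avg R G| ≤ μ := by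
  change |(∑ ω ∈ box R, G fun i => ω i) / #(box R)| ≤ μ
  rw [abs_div, Nat.abs_cast, div_le_iff₀' (box_pos hR), ← nsmul_eq_mul]
  exact (abs_sum_le_sum_abs _ _).trans (sum_le_card_nsmul _ _ _ fun ω hω => h _ fun i =>
    ⟨Int.natCast_nonneg _, mod_cast (mem_range.1 (Fintype.mem_piFinset.1 hω i)).le⟩)

theorem avg_const {R : I → ℕ} (hR : ∀ i, 0 < R i) (c : ℝ) : avg R (fun _ => c) = c := by
  change (∑ ω ∈ box R, c) / #(box R) = c
  rw [sum_const, nsmul_eq_mul, mul_div_cancel_left₀ _ (box_pos hR).ne']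

/-- averaged increment along `v` -/
noncomputable def D (R : I → ℕ) (v : I → ℤ) : ((I → ℤ) → ℝ) →ₗ[ℝ] ℝ :=
  avg R ∘ₗ (LinearMap.funLeft ℝ ℝ (· + v) - LinearMap.id)

theorem D_apply (R : I → ℕ) (v : I → ℤ) (G : (I → ℤ) → ℝ) :
    D R v G = avg R fun z => G (z + v) - G z := rfl

theorem D_key {R : I → ℕ} (hR : ∀ i, 0 < R i) {G : (I → ℤ) → ℝ} {μ : ℝ}
    (h : ∀ z, InBox R z → |G z| ≤ μ) (k : I) : |D R (Pi.single k 1) G| ≤ 2 * μ / R k := by
  let F : (I → ℕ) → ℝ := fun ω => G ((fun i => (ω i : ℤ)) + Pi.single k 1) - G fun i => ω i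
  let c : (I → ℕ) → ℕ → ℝ := fun ω s => G fun i => (Function.update ω k s i : ℕ)
  have h0 : (0 : ℝ) < R k := mod_cast hR k
  have h1 : ∑ q ∈ box R ×ˢ range (R k), F q.1 =
      ∑ q ∈ box R ×ˢ range (R k), F (Function.update q.1 k q.2) := by
    have hm : ∀ q ∈ box R ×ˢ range (R k), (Function.update q.1 k q.2, q.1 k) ∈
        box R ×ˢ range (R k) := fun q hq => mem_product.2 ⟨Fintype.mem_piFinset.2 fun i => by
          dsimp only
          by_cases e : i = k
          · rw [e, Function.update_self]; exact (mem_product.1 hq).2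
          · rw [Function.update_of_ne e]; exact Fintype.mem_piFinset.1 (mem_product.1 hq).1 i,
        Fintype.mem_piFinset.1 (mem_product.1 hq).1 k⟩
    exact sum_nbij' (fun q => (Function.update q.1 k q.2, q.1 k))
      (fun q => (Function.update q.1 k q.2, q.1 k)) hm hm (by simp) (by simp) (by simp)
  have h2 : ∀ ω s, F (Function.update ω k s) = c ω (s + 1) - c ω s := fun ω s => by
    simp only [F, c]
    congr 2
    ext i
    by_cases e : i = k <;> simp [e]
  have h3 : ∀ ω ∈ box R, ∀ s ≤ R k, |c ω s| ≤ μ := fun ω hω s hs => h _ fun i =>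
    ⟨Int.natCast_nonneg _, by
      by_cases e : i = k
      · simpa [e] using hs
      · simpa [e] using (mem_range.1 (Fintype.mem_piFinset.1 hω i)).le⟩
  simp only [sum_product, h2, sum_range_sub, sum_const, card_range, nsmul_eq_mul, ← mul_sum] at h1
  have h4 : |∑ ω ∈ box R, (c ω (R k) - c ω 0)| ≤ #(box R) * (2 * μ) := by
    rw [← nsmul_eq_mul]
    exact (abs_sum_le_sum_abs _ _).trans (sum_le_card_nsmul _ _ _ fun ω hω =>
      (abs_sub _ _).trans (by linarith [h3 ω hω _ le_rfl, h3 ω hω 0 (Nat.zero_le _)]))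
  rw [← h1, abs_mul, abs_of_pos h0] at h4
  change |(∑ ω ∈ box R, F ω) / #(box R)| ≤ _
  rw [abs_div, Nat.abs_cast, div_le_div_iff₀ (box_pos hR) h0]
  linarith

theorem D_add (R : I → ℕ) (v w : I → ℤ) (G : (I → ℤ) → ℝ) :
    D R (v + w) G = D R v G + D R w fun z => G (z + v) := by
  simp only [D_apply, ← map_add]
  congr 1
  ext z
  simp only [Pi.add_apply, add_assoc, add_comm w v]
  ring

theorem D_add' (R : I → ℕ) (v w : I → ℤ) (G : (I → ℤ) → ℝ) :
    D R (v + w) G = D R v G + D R w G + D R w fun z => G (z + v) - G z := by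
  rw [D_add, add_assoc, ← map_add]
  congr 2
  ext z
  simp

theorem D_zero (R : I → ℕ) (G : (I → ℤ) → ℝ) : D R 0 G = 0 := by
  simp only [D_apply, add_zero, sub_self]
  exact map_zero _

/-- the signed unit vector -/
noncomputable def ue (k : I) (c : ℝ) : I → ℤ := Pi.single k ⌊c⌋

omit [Fintype I] in
theorem ue_one (k : I) : ue k 1 = Pi.single k 1 := by simp [ue]

omit [Fintype I] in
theorem ue_neg (k : I) : ue k (-1) = -Pi.single k 1 := by
  rw [ue, ← Pi.single_neg, show (-1 : ℝ) = ((-1 : ℤ) : ℝ) by simp, Int.floor_intCast]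

variable {R : I → ℕ} {r : ℕ} (hr : 0 < r) (hR : ∀ i, r ≤ R i)
include hr hR

theorem D_unit {G : (I → ℤ) → ℝ} {μ : ℝ} (h : ∀ z, |G z| ≤ μ) (k : I) {c : ℝ} (hc : Sg c) :
    |D R (ue k c) G| ≤ 2 * μ / r := by
  have h0 : ∀ G : (I → ℤ) → ℝ, (∀ z, |G z| ≤ μ) → |D R (Pi.single k 1) G| ≤ 2 * μ / r :=
    fun G hG => (D_key (fun i => hr.trans_le (hR i)) (fun z _ => hG z) k).trans
      (div_le_div_of_nonneg_left (by linarith [abs_nonneg (G 0), hG 0]) (mod_cast hr)
        (mod_cast hR k))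
  rcases hc with rfl | rfl
  · rw [ue_one]; exact h0 G h
  · have := D_add R (-Pi.single k 1) (Pi.single k 1) G
    rw [neg_add_cancel, D_zero] at this
    rw [ue_neg, eq_neg_of_add_eq_zero_left this.symm, abs_neg]
    exact h0 _ fun z => h _

theorem D_sum {ι : Type} (s : Finset ι) (k : ι → I) {c : ι → ℝ} (hc : ∀ i, Sg (c i)) {μ : ℝ}
    {G : (I → ℤ) → ℝ} (h : ∀ z, |G z| ≤ μ) :
    |D R (∑ i ∈ s, ue (k i) (c i)) G| ≤ #s * (2 * μ / r) := by
  classical
  induction s using Finset.induction with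
  | empty => simp [D_zero]
  | insert a s ha ih =>
    rw [sum_insert ha, add_comm, D_add, card_insert_of_notMem ha]
    push_cast
    linarith [abs_add_le (D R (∑ i ∈ s, ue (k i) (c i)) G) (D R (ue (k a) (c a))
      fun z => G (z + ∑ i ∈ s, ue (k i) (c i))), D_unit hr hR
        (G := fun z => G (z + ∑ i ∈ s, ue (k i) (c i))) (fun z => h _) (k a) (hc a)]

theorem D_lin {ι : Type} (s : Finset ι) (k : ι → I) {c : ι → ℝ} (hc : ∀ i, Sg (c i)) {μ : ℝ}
    {G : (I → ℤ) → ℝ} (h : ∀ z i, |G (z + Pi.single i 1) - G z| ≤ μ) (hμ : 0 ≤ μ) :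
    |D R (∑ i ∈ s, ue (k i) (c i)) G - ∑ i ∈ s, c i * D R (Pi.single (k i) 1) G| ≤
      #s * #s * (2 * μ / r) + #s * (2 * μ / r) := by
  classical
  have h1 : ∀ i {c : ℝ}, Sg c → ∀ z, |G (z + ue i c) - G z| ≤ μ := fun i c hc z => by
    rcases hc with rfl | rfl
    · rw [ue_one]; exact h z i
    · have := h (z + ue i (-1)) i
      rwa [ue_neg, neg_add_cancel_right, abs_sub_comm, ← ue_neg] at this
  have h0 : 0 ≤ 2 * μ / r := by positivity
  have h2 : ∀ i {c : ℝ}, Sg c → |D R (ue i c) G - c * D R (Pi.single i 1) G| ≤ 2 * μ / r :=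
    fun i c hc => by
      rcases hc with rfl | rfl
      · simpa [ue_one] using h0
      · have := D_add' R (ue i (-1)) (ue i 1) G
        have h3 := D_unit hr hR (h1 i (Or.inr rfl)) i (Or.inl rfl)
        rw [ue_neg, ue_one, neg_add_cancel, D_zero] at this
        rw [ue_neg, ue_one] at h3
        rw [ue_neg, neg_one_mul, sub_neg_eq_add, eq_neg_of_add_eq_zero_left this.symm, abs_neg]
        exact h3
  induction s using Finset.induction with
  | empty => simp [D_zero]
  | insert a s ha ih =>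
    rw [sum_insert ha, sum_insert ha, D_add', card_insert_of_notMem ha]
    have h3 := abs_le.1 (D_sum hr hR s k hc (h1 (k a) (hc a)))
    have h4 := abs_le.1 (h2 (k a) (hc a))
    have h5 := abs_le.1 ih
    have h6 : (0 : ℝ) ≤ #s * (2 * μ / r) := by positivity
    push_cast
    rw [abs_le]
    constructor <;> nlinarith

end Crest.Agent.R115
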