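import Crest.Agent.R115.Graph

/-!
Row 115: a sequence of coloured graphs whose colour-matched products have no long walks.
-/

set_option autoImplicit false

open Finset

namespace Crest.Agent.R115

/-- a coloured graph -/
structure Blk (C : Type) where
  N : ℕ
  adj : ℕ → ℕ → Prop
  col : ℕ → C

variable {C : Type}

/-- properties of one block -/
structure Good (ρ M : ℕ) (Q : Blk C) : Prop where
  pos : 0 < Q.N
  symm : ∀ v w, Q.adj v w → Q.adj w v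
  lt : ∀ v w, Q.adj v w → w < Q.N
  irr : ∀ v, ¬Q.adj v v
  deg_le : ∀ v, deg Q.N Q.adj v ≤ 5
  few : M * #((range Q.N).filter fun v => deg Q.N Q.adj v < 5) ≤ Q.N
  sep : ∀ v w, Near Q.adj (4 * ρ) v w → Q.col v = Q.col w → v = w

/-- long walks of `Q'` cannot be read in `Q` -/
def Indep (ρ : ℕ) (Q Q' : Blk C) : Prop :=
  ∃ l, ∀ x b : ℕ → ℕ, (∀ i < l, Q'.adj (x i) (x (i + 1))) → (∀ i, i + 2 ≤ l → x (i + 2) ≠ x i) →
    b 0 < Q.N → (∀ i < l, Near Q.adj (2 * ρ) (b i) (b (i + 1))) →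
    ∃ i ≤ l, Q'.col (x i) ≠ Q.col (b i)

/-- the colours -/
abbrev Col (ρ : ℕ) : Type := Fin (6 ^ (4 * ρ) + 1) × Fin (60 * 6 ^ (2 * ρ))

theorem card_Col {ρ : ℕ} (h : 1 ≤ ρ) : Fintype.card (Col ρ) ≤ 6 ^ (9 * ρ) := by
  have h1 : 6 ^ 3 ≤ 6 ^ (3 * ρ) := Nat.pow_le_pow_right (by norm_num) (by omega)
  have h2 : 1 ≤ 6 ^ (4 * ρ) := Nat.one_le_pow _ _ (by norm_num)
  rw [show 9 * ρ = 3 * ρ + 4 * ρ + 2 * ρ by ring, pow_add, pow_add, Fintype.card_prod,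
    Fintype.card_fin, Fintype.card_fin, ← mul_assoc]
  exact Nat.mul_le_mul_right _ (by nlinarith)

theorem blk_step (ρ : ℕ) {M : ℕ} (hM : 0 < M) (s : Finset (Blk (Col ρ)))
    (hs : ∀ Q ∈ s, Good ρ M Q) : ∃ Q', Good ρ M Q' ∧ ∀ Q ∈ s, Indep ρ Q Q' := by
  classical
  set b := ∑ Q ∈ s, Q.N
  set l := M * b + 1 with hl
  set N := M * 6 ^ l with hN
  have hN0 : 0 < N := by positivity
  have : NeZero N := ⟨hN0.ne'⟩
  have : NeZero (60 * 6 ^ (2 * ρ)) := ⟨by positivity⟩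
  obtain ⟨adj, a1, a2, a3, a4, a5⟩ := exists_graph N (l := l) (by omega)
  have hb := bdd_of_deg a2 a3
  obtain ⟨c, hc⟩ := exists_colouring (hb.near (4 * ρ)) (fun v w h => h.symm a1) N
  have hW : ∀ Q ∈ s, ∃ W : Finset (ℕ → ℕ × ℕ), #W ≤ N * Q.N * (5 * 6 ^ (2 * ρ)) ^ l ∧
      ∀ y : ℕ → ℕ × ℕ, y 0 ∈ range N ×ˢ range Q.N → (∀ i < l, adj (y i).1 (y (i + 1)).1 ∧
        Near Q.adj (2 * ρ) (y i).2 (y (i + 1)).2) → ∃ y' ∈ W, ∀ i ≤ l, y' i = y i := by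
    intro Q hQ
    have := Bdd.walks (adj := fun p q : ℕ × ℕ => adj p.1 q.1 ∧ Near Q.adj (2 * ρ) p.2 q.2)
      (D := 5 * 6 ^ (2 * ρ)) (fun p => by
        obtain ⟨t1, h1, h2⟩ := hb p.1
        obtain ⟨t2, h3, h4⟩ := (bdd_of_deg (hs Q hQ).lt (hs Q hQ).deg_le).near (2 * ρ) p.2
        exact ⟨t1 ×ˢ t2, (card_product _ _).trans_le (Nat.mul_le_mul h1 h3), fun q hq =>
          mem_product.2 ⟨h2 _ hq.1, h4 _ hq.2⟩⟩) (range N ×ˢ range Q.N) l
    rwa [card_product, card_range, card_range] at this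
  choose! W hW1 hW2 using hW
  let F : Blk (Col ρ) → (ℕ → ℕ × ℕ) → (Fin (l + 1) → Fin N) × (Fin (l + 1) → _) := fun Q y =>
    (fun i => Fin.ofNat N (y i).1, fun i => (Q.col (y i).2).2)
  obtain ⟨r, hr⟩ := exists_avoid ((s.biUnion fun Q => (W Q).image (F Q)).filter
    fun p => Function.Injective p.1) (fun p hp => (mem_filter.1 hp).2) (by
      refine ((card_filter_le _ _).trans (card_biUnion_le.trans
        (sum_le_sum fun Q hQ => card_image_le.trans (hW1 Q hQ)))).trans_lt ?_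
      rw [← sum_mul, ← mul_sum, Fintype.card_fin, Fintype.card_fin, hN]
      have h1 : M * b < 2 ^ l := (Nat.lt_succ_self _).trans Nat.lt_two_pow_self
      have h2 : 0 < (30 * 6 ^ (2 * ρ)) ^ l := by positivity
      calc M * 6 ^ l * b * (5 * 6 ^ (2 * ρ)) ^ l = M * b * (30 * 6 ^ (2 * ρ)) ^ l := by
            rw [show 30 * 6 ^ (2 * ρ) = 6 * (5 * 6 ^ (2 * ρ)) by ring, mul_pow 6]; ring
        _ < 2 ^ l * (30 * 6 ^ (2 * ρ)) ^ l := Nat.mul_lt_mul_of_pos_right h1 h2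
        _ = (60 * 6 ^ (2 * ρ)) ^ l := by rw [← mul_pow]; ring_nf
        _ ≤ _ := Nat.pow_le_pow_right (by positivity) (Nat.le_succ _))
  refine ⟨⟨N, adj, fun v => (c v, r (Fin.ofNat N v))⟩, ⟨hN0, a1, a2, fun v hv =>
    a4 (fun _ => v) 1 le_rfl (by omega) (fun _ _ => hv) (fun i hi => by omega) rfl, a3,
    Nat.mul_le_mul_left _ a5, fun v w h1 h2 => by_contra fun h3 => ?_⟩,
    fun Q hQ => ⟨l, fun x y h1 h2 h3 h4 => ?_⟩⟩
  · obtain ⟨z, hz⟩ := h1.exists_adj h3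
    obtain ⟨z', hz'⟩ := (h1.symm a1).exists_adj (Ne.symm h3)
    exact hc v (a2 _ _ (a1 _ _ hz)) w (a2 _ _ (a1 _ _ hz')) h3 h1 (congrArg Prod.fst h2)
  · have hx : ∀ i ≤ l, x i < N := fun i hi => by
      cases i with
      | zero => exact a2 _ _ (a1 _ _ (h1 0 (by omega)))
      | succ i => exact a2 _ _ (h1 i hi)
    obtain ⟨y', h5, h6⟩ := hW2 Q hQ (fun i => (x i, y i))
      (mem_product.2 ⟨mem_range.2 (hx 0 l.zero_le), mem_range.2 h3⟩) fun i hi => ⟨h1 i hi, h4 i hi⟩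
    have h7 : ∀ i j : Fin (l + 1), i < j → (F Q y').1 i ≠ (F Q y').1 j := fun i j hij e => by
      have e' := congrArg Fin.val e
      simp only [F, h6 i i.is_le, h6 j j.is_le, Fin.val_ofNat, Nat.mod_eq_of_lt (hx i i.is_le),
        Nat.mod_eq_of_lt (hx j j.is_le)] at e'
      exact a4.shift x hij (by omega) (fun t _ ht => h1 t (by omega))
        (fun t ht => h2 t (by omega)) e'.symm
    obtain ⟨i, hi⟩ := hr (F Q y') (mem_filter.2 ⟨mem_biUnion.2 ⟨Q, hQ, mem_image_of_mem _ h5⟩,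
      fun i j e => by_contra fun hne => (lt_or_gt_of_ne hne).elim (fun h => h7 i j h e)
        fun h => h7 j i h e.symm⟩)
    refine ⟨i, i.is_le, fun e => hi ?_⟩
    simpa only [F, h6 i i.is_le] using congrArg Prod.snd e

theorem exists_blks (ρ : ℕ) {M : ℕ} (hM : 0 < M) : ∃ Q : ℕ → Blk (Col ρ),
    (∀ k, Good ρ M (Q k)) ∧ ∀ j k, j < k → Indep ρ (Q j) (Q k) :=
  exists_seq_of_forall_finset_exists _ _ (blk_step ρ hM)

end Crest.Agent.R115
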