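import Crest.Agent.R115.Blk

/-!
Row 115: no almost equivariant family of measures on a finite set.
-/

set_option autoImplicit false

open Finset

namespace Crest.Agent.R115

variable {α : Type}

/-- slowly varying functions -/
def Psi (adj : α → α → Prop) (ρ : ℕ) (ψ : α → ℝ) : Prop :=
  (∀ x, |ψ x| ≤ 1) ∧ ∀ x y, adj x y → |ψ x - ψ y| ≤ 1 / ρ

theorem exists_psi {adj : α → α → Prop} (hs : ∀ x y, adj x y → adj y x) {ρ : ℕ} (hρ : 1 ≤ ρ)
    (P : α → Prop) : ∃ ψ, Psi adj ρ ψ ∧ (∀ x, P x → ψ x = 1) ∧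
      ∀ x, (∀ p, P p → ¬Near adj (2 * ρ) p x) → ψ x = -1 := by
  classical
  have h0 : (0 : ℝ) < ρ := by exact_mod_cast hρ
  let S : α → Finset ℕ := fun x => (range (2 * ρ)).filter fun i => ∃ p, P p ∧ Near adj i p x
  have h1 : ∀ x y, adj x y → (#(S x) : ℝ) ≤ #(S y) + 1 := fun x y h => by
    rw [← card_image_of_injective (S x) Nat.succ_injective]
    refine mod_cast (card_le_card fun i hi => ?_).trans (card_insert_le (2 * ρ) (S y))
    obtain ⟨j, hj, rfl⟩ := mem_image.1 hi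
    obtain ⟨h2, p, h3, h4⟩ := mem_filter.1 hj
    rcases (Nat.succ_le_of_lt (mem_range.1 h2)).eq_or_lt with e | e
    · exact e ▸ mem_insert_self _ _
    · exact mem_insert_of_mem (mem_filter.2 ⟨mem_range.2 e, p, h3, Or.inr ⟨x, h4, h⟩⟩)
  refine ⟨fun x => #(S x) / ρ - 1, ⟨fun x => abs_le.2 ⟨?_, ?_⟩, fun x y h => ?_⟩, fun x h => ?_,
    fun x h => ?_⟩
  · have : (0 : ℝ) ≤ #(S x) / ρ := by positivity
    linarith
  · have : (#(S x) : ℝ) ≤ 2 * ρ := mod_cast (card_filter_le _ _).trans_eq (card_range _)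
    linarith [(div_le_iff₀ h0).2 this]
  · rw [sub_sub_sub_cancel_right, ← sub_div, abs_div, abs_of_pos h0]
    exact div_le_div_of_nonneg_right (abs_le.2 ⟨by linarith [h1 y x (hs _ _ h)],
      by linarith [h1 x y h]⟩) h0.le
  · have : S x = range (2 * ρ) := filter_true_of_mem fun i _ => ⟨x, h, Near.refl _ _⟩
    simp only [this, card_range]
    push_cast
    field_simp
    norm_num
  · have : S x = ∅ := filter_false_of_mem fun i hi ⟨p, h2, h3⟩ =>
      h p h2 (h3.mono (mem_range.1 hi).le)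
    simp [this]

open Classical in
theorem psi_sum {adj : α → α → Prop} (hs : ∀ x y, adj x y → adj y x) {ρ : ℕ} (hρ : 1 ≤ ρ)
    (B : Finset α) (a : α → ℝ) : ∃ ψ, Psi adj ρ ψ ∧ ∑ b ∈ B, |a b| ≤ ∑ b ∈ B, ψ b * a b +
      2 * ∑ b ∈ B, ∑ b' ∈ B, if b ≠ b' ∧ Near adj (2 * ρ) b b' then min |a b| |a b'| else 0 := by
  obtain ⟨ψ, h1, h2, h3⟩ := exists_psi hs hρ
    fun b => b ∈ B ∧ 0 < a b ∧ ∀ b' ∈ B, Near adj (2 * ρ) b b' → -a b' ≤ a b
  refine ⟨ψ, h1, ?_⟩
  rw [mul_sum, ← sum_add_distrib]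
  refine sum_le_sum fun b hb => ?_
  have h0 : ∀ b' ∈ B, (0 : ℝ) ≤
      if b ≠ b' ∧ Near adj (2 * ρ) b b' then min |a b| |a b'| else 0 := fun b' _ => by
    split_ifs <;> positivity
  have key : ∀ b' ∈ B, b ≠ b' → Near adj (2 * ρ) b b' → |a b| ≤ |a b'| → |a b| ≤ ψ b * a b +
      2 * ∑ b' ∈ B, if b ≠ b' ∧ Near adj (2 * ρ) b b' then min |a b| |a b'| else 0 := by
    intro b' h4 h5 h6 h7
    have h8 := single_le_sum h0 h4
    have h9 : |ψ b * a b| ≤ |a b| := by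
      rw [abs_mul]; exact mul_le_of_le_one_left (abs_nonneg _) (h1.1 b)
    rw [if_pos ⟨h5, h6⟩, min_eq_left h7] at h8
    linarith [neg_abs_le (ψ b * a b)]
  have h4 := sum_nonneg h0
  rcases lt_trichotomy (a b) 0 with h | h | h
  · by_cases hc : ∃ p, (p ∈ B ∧ 0 < a p ∧ ∀ b' ∈ B, Near adj (2 * ρ) p b' → -a b' ≤ a p) ∧
        Near adj (2 * ρ) p b
    · obtain ⟨p, ⟨h5, h6, h7⟩, h8⟩ := hc
      refine key p h5 (fun e => by rw [e] at h; linarith) (h8.symm hs) ?_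
      rw [abs_of_neg h, abs_of_pos h6]
      exact h7 b hb h8
    · rw [h3 b fun p h5 h6 => hc ⟨p, h5, h6⟩]; linarith [abs_of_neg h]
  · have e1 : |a b| = 0 := by rw [h, abs_zero]
    have e2 : ψ b * a b = 0 := by rw [h, mul_zero]
    linarith
  · by_cases hc : ∀ b' ∈ B, Near adj (2 * ρ) b b' → -a b' ≤ a b
    · rw [h2 b ⟨hb, h, hc⟩]; linarith [abs_of_pos h]
    · push Not at hc
      obtain ⟨b', h5, h6, h7⟩ := hc
      refine key b' h5 (fun e => by rw [← e] at h7; linarith) h6 ?_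
      rw [abs_of_pos h]
      exact h7.le.trans (neg_le_abs _)

open Classical in
theorem degen {R : α → α → Prop} (hs : ∀ x y, R x y → R y x) (hi : ∀ x, ¬R x x) {p : α → ℝ}
    (hp : ∀ x, 0 ≤ p x) (U : Finset α)
    (h : ∀ V ⊆ U, V.Nonempty → ∃ a ∈ V, ∀ b ∈ V, ∀ c ∈ V, R a b → R a c → b = c) :
    ∑ a ∈ U, ∑ b ∈ U, (if R a b then min (p a) (p b) else 0) ≤ 2 * ∑ a ∈ U, p a := by
  induction U using Finset.strongInduction with
  | H U ih =>
    rcases U.eq_empty_or_nonempty with rfl | hU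
    · simp
    obtain ⟨a, ha, h1⟩ := h U Subset.rfl hU
    have h2 := ih _ (erase_ssubset ha) fun V hV => h V (hV.trans (erase_subset _ _))
    have h3 : ∑ b ∈ U.erase a, (if R a b then min (p a) (p b) else 0) ≤ p a := by
      rw [← sum_filter]
      refine (sum_le_card_nsmul _ _ (p a) fun b _ => min_le_left _ _).trans ?_
      have : #((U.erase a).filter (R a)) ≤ 1 := card_le_one.2 fun b hb c hc =>
        h1 b (mem_of_mem_erase (mem_filter.1 hb).1) c (mem_of_mem_erase (mem_filter.1 hc).1)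
          (mem_filter.1 hb).2 (mem_filter.1 hc).2
      rw [nsmul_eq_mul]
      exact mul_le_of_le_one_left (hp a) (mod_cast this)
    have h4 : ∑ b ∈ U.erase a, (if R b a then min (p b) (p a) else 0) =
        ∑ b ∈ U.erase a, (if R a b then min (p a) (p b) else 0) :=
      sum_congr rfl fun b _ => by rw [min_comm, if_congr ⟨hs b a, hs a b⟩ rfl rfl]
    simp only [← add_sum_erase U _ ha, if_neg (hi a), sum_add_distrib]
    linarith

theorem exists_walk {R : α → α → Prop} {V : Finset α} (hV : V.Nonempty)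
    (h : ∀ a ∈ V, ∃ b ∈ V, ∃ c ∈ V, R a b ∧ R a c ∧ b ≠ c) :
    ∃ x : ℕ → α, ∀ i, x i ∈ V ∧ R (x i) (x (i + 1)) ∧ x (i + 2) ≠ x i := by
  have h1 : ∀ q : α × α, q.2 ∈ V → ∃ y, y ∈ V ∧ R q.2 y ∧ y ≠ q.1 := fun q hq => by
    obtain ⟨b, h1, c, h2, h3, h4, h5⟩ := h _ hq
    by_cases e : b = q.1
    exacts [⟨c, h2, h4, fun e' => h5 (e.trans e'.symm)⟩, ⟨b, h1, h3, e⟩]
  obtain ⟨a, ha⟩ := hV
  have : Nonempty α := ⟨a⟩
  choose! f h2 using h1
  let s : ℕ → α × α := fun n => Nat.rec (a, a) (fun _ q => (q.2, f q)) n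
  have h3 : ∀ n, (s n).2 ∈ V := fun n => by
    induction n with
    | zero => exact ha
    | succ n ih => exact (h2 _ ih).1
  exact ⟨fun n => (s n).2, fun i => ⟨h3 i, (h2 _ (h3 i)).2.1, (h2 _ (h3 (i + 1))).2.2⟩⟩

/-- adjacency in the disjoint union -/
def adjU {C : Type} (Q : ℕ → Blk C) (p q : ℕ × ℕ) : Prop := p.1 = q.1 ∧ (Q p.1).adj p.2 q.2

theorem near_adjU {C : Type} {Q : ℕ → Blk C} {r : ℕ} {p q : ℕ × ℕ} (h : Near (adjU Q) r p q) :
    p.1 = q.1 ∧ Near (Q p.1).adj r p.2 q.2 := by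
  induction r generalizing q with
  | zero => exact ⟨congrArg _ h, congrArg _ h⟩
  | succ r ih =>
    rcases h with h | ⟨z, h1, h2⟩
    · exact ⟨(ih h).1, Or.inl (ih h).2⟩
    · exact ⟨(ih h1).1.trans h2.1, Or.inr ⟨z.2, (ih h1).2, (ih h1).1 ▸ h2.2⟩⟩

theorem comb {ρ : ℕ} (hρ : 1 ≤ ρ) (Λ : ℕ) :
    ∃ (adj : ℕ × ℕ → ℕ × ℕ → Prop) (col : ℕ × ℕ → Col ρ),
      ∀ (L : ℕ × ℕ → (ℕ × ℕ → ℝ) →ₗ[ℝ] ℝ) (B : Finset (ℕ × ℕ)),
      (∀ x ψ, (∀ b ∈ B, ψ b = 0) → L x ψ = 0) →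
      (∀ x ψ, (∀ b, col b = col x → ψ b = 0) → L x ψ = 0) →
      (∀ x y ψ, adj x y → Psi adj ρ ψ → L x ψ - L y ψ ≤ 1 / 10) →
      (∀ x ψ, Psi adj ρ ψ → L x ψ ≤ Λ) → (∀ x, 1 / 2 ≤ L x 1) → False := by
  classical
  obtain ⟨Q, hQ, hI⟩ := exists_blks ρ (M := 4 + 64 * ρ * Λ) (by omega)
  refine ⟨adjU Q, fun x => (Q x.1).col x.2, fun L B h1 h2 h3 h4 h5 => ?_⟩
  set col : ℕ × ℕ → Col ρ := fun x => (Q x.1).col x.2 with hcol
  have h0 : (0 : ℝ) < ρ := by exact_mod_cast hρ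
  have hs : ∀ x y, adjU Q x y → adjU Q y x := fun x y h => ⟨h.1.symm, h.1 ▸ (hQ _).symm _ _ h.2⟩
  have hsep : ∀ x y, Near (adjU Q) (4 * ρ) x y → col x = col y → x = y := fun x y h e =>
    Prod.ext (near_adjU h).1 ((hQ _).sep _ _ (near_adjU h).2 (by
      simpa only [hcol, ← (near_adjU h).1] using e))
  obtain ⟨k, hk⟩ := (B.image Prod.fst).exists_le
  set G := hQ (k + 1)
  set N := (Q (k + 1)).N
  set A := (Q (k + 1)).adj
  let η : ℕ → ℕ × ℕ → ℝ := fun v b => L (k + 1, v) (Pi.single b 1)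
  have hrep : ∀ v ψ, L (k + 1, v) ψ = ∑ b ∈ B, ψ b * η v b := fun v ψ => by
    have := h1 (k + 1, v) (ψ - ∑ b ∈ B, ψ b • Pi.single b 1) fun b hb => by
      simp [Finset.sum_apply, Pi.single_apply, hb]
    rw [map_sub, map_sum, sub_eq_zero] at this
    simpa only [map_smul, smul_eq_mul] using this
  have hη : ∀ v b, col b ≠ col (k + 1, v) → η v b = 0 := fun v b h =>
    h2 _ _ fun b' e => Pi.single_eq_of_ne (fun e' : b' = b => h (by rw [← e']; exact e)) _
  have hc : ∀ v w, A v w → col (k + 1, v) ≠ col (k + 1, w) := fun v w h e =>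
    G.irr v (G.sep v w (Near.mono (r := 1) (Or.inr ⟨v, rfl, h⟩) (by omega)) e ▸ h)
  let n : ℕ → ℝ := fun v => ∑ b ∈ B, |η v b|
  have n1 : ∀ v, 1 / 2 ≤ n v := fun v => (h5 _).trans ((hrep v 1).trans_le
    (sum_le_sum fun b _ => by simpa using le_abs_self _))
  have n2 : ∀ v, n v ≤ 2 * ρ * Λ := fun v => by
    let ψ : ℕ × ℕ → ℝ := fun b => (if 0 ≤ η v b then 1 else -1) / (2 * ρ)
    have e : ∀ b, |ψ b| ≤ 1 / (2 * ρ) := fun b => by
      rw [abs_div, abs_of_pos (a := 2 * (ρ : ℝ)) (by positivity)]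
      split_ifs <;> simp
    have e2 : 1 / (2 * (ρ : ℝ)) + 1 / (2 * ρ) = 1 / ρ := by field_simp; norm_num
    have := h4 (k + 1, v) ψ
      ⟨fun b => (e b).trans ((div_le_one (by positivity)).2 (by
        have : (1 : ℝ) ≤ ρ := mod_cast hρ
        linarith)), fun x y _ => by linarith [e x, e y, abs_sub (ψ x) (ψ y)]⟩
    have e3 : ∀ b, ψ b * η v b = |η v b| / (2 * ρ) := fun b => by
      simp only [ψ]
      split_ifs with h
      · rw [abs_of_nonneg h]; ring
      · rw [abs_of_neg (not_le.1 h)]; ring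
    rw [hrep] at this
    simp only [e3, ← sum_div] at this
    rwa [div_le_iff₀' (by positivity)] at this
  let R : ℕ × ℕ × ℕ → ℕ × ℕ × ℕ → Prop := fun a b => A a.1 b.1 ∧ Near (adjU Q) (2 * ρ) a.2 b.2 ∧
    col a.2 = col (k + 1, a.1) ∧ col b.2 = col (k + 1, b.1)
  let Z : ℕ → ℕ → ℝ := fun v w => ∑ b ∈ B, ∑ b' ∈ B,
    if R (v, b) (w, b') then min |η v b| |η w b'| else 0
  have hedge : ∀ v w, A v w → n v + n w ≤ 1 / 10 + 2 * (Z v w + Z w v) := fun v w h => by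
    obtain ⟨ψ, a1, a2⟩ := psi_sum hs hρ B (η v - η w)
    have a3 := h3 (k + 1, v) (k + 1, w) ψ ⟨rfl, h⟩ a1
    rw [hrep, hrep, ← sum_sub_distrib] at a3
    have a4 : n v + n w = ∑ b ∈ B, |(η v - η w) b| := by
      rw [← sum_add_distrib]
      refine sum_congr rfl fun b _ => ?_
      by_cases e : col b = col (k + 1, v)
      · simp [hη w b (e ▸ hc v w h)]
      · simp [hη v b e]
    simp only [Pi.sub_apply, mul_sub] at a2 a4
    refine a4.le.trans (a2.trans (add_le_add a3 (mul_le_mul_of_nonneg_left ?_ two_pos.le)))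
    simp only [Z, ← sum_add_distrib]
    refine sum_le_sum fun b _ => sum_le_sum fun b' _ => ?_
    have z1 : (0 : ℝ) ≤ if R (v, b) (w, b') then min |η v b| |η w b'| else 0 := by
      split_ifs <;> positivity
    have z2 : (0 : ℝ) ≤ if R (w, b) (v, b') then min |η w b| |η v b'| else 0 := by
      split_ifs <;> positivity
    by_cases hb : b ≠ b' ∧ Near (adjU Q) (2 * ρ) b b'
    swap
    · rw [if_neg hb]; positivity
    have hne : col b ≠ col b' := fun e => hb.1 (hsep _ _ (hb.2.mono (by omega)) e)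
    rw [if_pos hb]
    by_cases e1 : col b = col (k + 1, v) ∧ col b' = col (k + 1, w)
    · rw [if_pos ⟨h, hb.2, e1⟩, hη w b (e1.2 ▸ hne), hη v b' (e1.1 ▸ hne.symm), sub_zero, zero_sub,
        abs_neg]
      split_ifs <;> simp
    by_cases e2 : col b = col (k + 1, w) ∧ col b' = col (k + 1, v)
    · rw [if_pos (c := R (w, b) (v, b')) ⟨G.symm _ _ h, hb.2, e2⟩, hη v b (e2.2 ▸ hne),
        hη w b' (e2.1 ▸ hne.symm), sub_zero, zero_sub, abs_neg]
      split_ifs <;> simp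
    refine le_trans ?_ (add_nonneg z1 z2)
    by_cases e3 : col b ≠ col (k + 1, v) ∧ col b ≠ col (k + 1, w)
    · simp [hη v b e3.1, hη w b e3.2]
    · have e4 : col b' ≠ col (k + 1, v) ∧ col b' ≠ col (k + 1, w) := by grind
      simp [hη v b' e4.1, hη w b' e4.2]
  have hdeg := degen (R := R) (fun a b h => ⟨G.symm _ _ h.1, h.2.1.symm hs, h.2.2.symm⟩)
    (fun a h => G.irr _ h.1) (p := fun a => |η a.1 a.2|) (fun _ => abs_nonneg _) (range N ×ˢ B)
    fun V hV hne => by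
      by_contra! hcon
      obtain ⟨x, hx⟩ := exists_walk hne hcon
      have b1 : ∀ i, (x i).2.1 = (x 0).2.1 := fun i => by
        induction i with
        | zero => rfl
        | succ i ih => exact (near_adjU (hx i).2.1.2.1).1.symm.trans ih
      obtain ⟨l, hl⟩ := hI (x 0).2.1 (k + 1) (Nat.lt_succ_of_le
        (hk _ (mem_image_of_mem _ (mem_product.1 (hV (hx 0).1)).2)))
      obtain ⟨i, -, hi⟩ := hl (fun i => (x i).1) (fun i => (x i).2.2) (fun i _ => (hx i).2.1.1)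
        (fun i _ e => (hx i).2.2 (Prod.ext e (hsep _ _ (((hx i).2.1.2.1.trans
          (hx (i + 1)).2.1.2.1).mono (by omega)) (by
            rw [(hx i).2.1.2.2.1, (hx (i + 1)).2.1.2.2.2, e])).symm))
        (by
          obtain ⟨z, hz⟩ := (hx 0).2.1.2.1.exists_adj fun e => hc _ _ (hx 0).2.1.1 (by
            rw [← (hx 0).2.1.2.2.1, e, (hx 0).2.1.2.2.2])
          exact (hQ _).lt _ _ ((hQ _).symm _ _ hz.2))
        fun i _ => b1 i ▸ (near_adjU (hx i).2.1.2.1).2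
      exact hi (b1 i ▸ (hx i).2.1.2.2.1.symm)
  have hZ : ∑ v ∈ range N, ∑ w ∈ range N, (if A v w then Z v w else 0) ≤ 2 * ∑ v ∈ range N, n v := by
    simp only [sum_product] at hdeg
    refine le_trans (sum_le_sum fun v _ => ?_) hdeg
    rw [sum_comm]
    refine sum_le_sum fun w _ => ?_
    split_ifs
    · exact le_rfl
    · exact sum_nonneg fun _ _ => sum_nonneg fun _ _ => by split_ifs <;> positivity
  have sw : ∀ f : ℕ → ℕ → ℝ, ∑ v ∈ range N, ∑ w ∈ range N, (if A v w then f w v else 0) =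
      ∑ v ∈ range N, ∑ w ∈ range N, (if A v w then f v w else 0) := fun f => by
    rw [sum_comm]
    exact sum_congr rfl fun v _ => sum_congr rfl fun w _ =>
      if_congr ⟨G.symm _ _, G.symm _ _⟩ rfl rfl
  have hd : ∀ (v : ℕ) (t : ℝ), ∑ w ∈ range N, (if A v w then t else 0) = deg N A v * t :=
    fun v t => by rw [← sum_filter, sum_const, nsmul_eq_mul]; rfl
  have tot : ∑ v ∈ range N, ∑ w ∈ range N, ((if A v w then n v else 0) + if A v w then n w else 0) ≤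
      ∑ v ∈ range N, ∑ w ∈ range N, ((if A v w then 1 / 10 else 0) +
        2 * ((if A v w then Z v w else 0) + if A v w then Z w v else 0)) :=
    sum_le_sum fun v _ => sum_le_sum fun w _ => by
      split_ifs with h
      exacts [hedge v w h, by simp]
  simp only [sum_add_distrib, ← mul_sum, sw Z, sw fun v _ => n v, hd] at tot
  have low : ∑ v ∈ range N, (1 / 4 - if deg N A v < 5 then (1 / 2 + 8 * ρ * Λ : ℝ) else 0) ≤
      ∑ v ∈ range N, (deg N A v * n v - deg N A v * (1 / 20) - 4 * n v) :=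
    sum_le_sum fun v _ => by
      have d1 : (deg N A v : ℝ) ≤ 5 := mod_cast G.deg_le v
      split_ifs with h
      · nlinarith [n1 v, n2 v, (deg N A v).cast_nonneg (α := ℝ)]
      · have : (deg N A v : ℝ) = 5 := mod_cast le_antisymm (G.deg_le v) (not_lt.1 h)
        rw [this]; linarith [n1 v]
  have few : ((4 + 64 * ρ * Λ) * #((range N).filter fun v => deg N A v < 5) : ℝ) ≤ N :=
    mod_cast G.few
  have pos : (0 : ℝ) < N := mod_cast G.pos
  simp only [sum_sub_distrib, ← mul_sum, ← sum_filter, sum_const, card_range, nsmul_eq_mul,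
    ← sum_mul] at low tot hZ
  linarith

end Crest.Agent.R115
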