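import Crest.Agent.R115.Level
import Crest.Agent.R115.Comb

/-!
Row 115: for each bound `l`, a countable uniformly discrete space without finite-rank
approximations of norm `l`.
-/

set_option autoImplicit false

open Finset

namespace Crest.Agent.R115

/-- no finitely determined linear approximation of the identity with bound `l` -/
def Bad {X : Type} (d : X → X → ℝ) (l : ℝ) : Prop :=
  ∃ (A : Finset X) (δ : ℝ), 0 < δ ∧ ∀ (S : (X → ℝ) →ₗ[ℝ] (X → ℝ)) (B : Finset X),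
    (∀ h, Lip d 1 h → Lip d l (S h)) → (∀ h, Lip d 1 h → ∀ a ∈ A, |S h a - h a| ≤ δ) →
    (∀ h, (∀ b ∈ B, h b = 0) → S h = 0) → False

theorem exists_metric {X : Type} (G : Set (X → ℝ)) (hb : ∀ p q, ∃ b, ∀ g ∈ G, |g p - g q| ≤ b) :
    ∃ m : MetricSpace X, (∀ x y, x ≠ y → 1 ≤ m.dist x y) ∧ (∀ g ∈ G, Lip m.dist 1 g) ∧
      ∀ p q β, 1 ≤ β → (∀ g ∈ G, |g p - g q| ≤ β) → m.dist p q ≤ β := by
  classical
  let e : X → X → ℝ := fun p q => sSup (insert 1 ((fun g : X → ℝ => |g p - g q|) '' G))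
  have h0 : ∀ p q, BddAbove (insert 1 ((fun g : X → ℝ => |g p - g q|) '' G)) := fun p q => by
    obtain ⟨b, hb⟩ := hb p q
    exact BddAbove.insert _ ⟨b, Set.forall_mem_image.2 hb⟩
  have h1 : ∀ p q, 1 ≤ e p q := fun p q => le_csSup (h0 p q) (Set.mem_insert _ _)
  have h2 : ∀ p q, ∀ g ∈ G, |g p - g q| ≤ e p q := fun p q g hg =>
    le_csSup (h0 p q) (Set.mem_insert_of_mem _ ⟨g, hg, rfl⟩)
  have h3 : ∀ p q β, 1 ≤ β → (∀ g ∈ G, |g p - g q| ≤ β) → e p q ≤ β := fun p q β h h' =>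
    csSup_le (Set.insert_nonempty _ _) (Set.forall_mem_insert.2 ⟨h, Set.forall_mem_image.2 h'⟩)
  refine ⟨{ dist := fun p q => if p = q then 0 else e p q
            dist_self := fun p => if_pos rfl
            dist_comm := fun p q => ?_
            dist_triangle := fun p q s => ?_
            eq_of_dist_eq_zero := fun {p q} h => ?_ }, fun p q h => ?_, fun g hg p q => ?_,
    fun p q β h h' => ?_⟩
  · simp only [e, abs_sub_comm, eq_comm]
  · by_cases e1 : p = q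
    · simp [e1]
    by_cases e2 : q = s
    · simp [e2]
    rw [if_neg e1, if_neg e2]
    split_ifs
    · linarith [h1 p q, h1 q s]
    · exact h3 _ _ _ (by linarith [h1 p q, h1 q s]) fun g hg =>
        (abs_sub_le _ _ _).trans (add_le_add (h2 _ _ g hg) (h2 _ _ g hg))
  · by_contra e1
    exact (zero_lt_one.trans_le (h1 p q)).ne' ((if_neg e1).symm.trans h)
  · exact (h1 p q).trans_eq (if_neg h).symm
  · change _ ≤ 1 * if p = q then 0 else e p q
    split_ifs with h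
    · simp [h]
    · rw [one_mul]; exact h2 p q g hg
  · change (if p = q then 0 else e p q) ≤ β
    split_ifs
    exacts [by linarith, h3 p q β h h']

theorem exists_ctx {Y I : Type} [Fintype I] (Γ : Set (Y → I → ℝ))
    (hb : ∀ γ ∈ Γ, ∀ y i, |γ y i| ≤ 1) :
    ∃ m : MetricSpace (Y × (I → ℤ)), (∀ x y, x ≠ y → 1 ≤ m.dist x y) ∧ Ctx Γ m.dist := by
  have h : ∀ γ ∈ Γ, ∀ p, |lin γ p| ≤ ∑ i, |(p.2 i : ℝ)| := fun γ hγ p =>
    (abs_sum_le_sum_abs _ _).trans (sum_le_sum fun i _ => by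
      rw [abs_mul]; exact mul_le_of_le_one_left (abs_nonneg _) (hb γ hγ _ _))
  obtain ⟨m, h1, h2, h3⟩ := exists_metric (lin '' Γ) fun p q =>
    ⟨_, Set.forall_mem_image.2 fun γ hγ => (abs_sub _ _).trans (add_le_add (h γ hγ p) (h γ hγ q))⟩
  exact ⟨m, h1, hb, fun γ hγ => h2 _ ⟨γ, hγ, rfl⟩,
    fun p q β hβ h => h3 p q β hβ (Set.forall_mem_image.2 h)⟩

/-- extension by zero to the extra point -/
def bar {V : Type} : (V → ℝ) →ₗ[ℝ] (Option V → ℝ) where
  toFun ψ y := y.elim 0 ψ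
  map_add' _ _ := by ext (_ | _) <;> simp
  map_smul' _ _ := by ext (_ | _) <;> simp

@[simp] theorem bar_some {V : Type} (ψ : V → ℝ) (v : V) : bar ψ (some v) = ψ v := rfl
@[simp] theorem bar_none {V : Type} (ψ : V → ℝ) : bar ψ none = 0 := rfl

open Classical in
/-- restriction to a colour class -/
noncomputable def cut {V C : Type} (col : V → C) (c : C) : (V → ℝ) →ₗ[ℝ] (V → ℝ) where
  toFun ψ v := if col v = c then ψ v else 0
  map_add' _ _ := by ext; simp only [Pi.add_apply]; split_ifs <;> simp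
  map_smul' _ _ := by ext; simp

open Classical in
theorem cut_apply {V C : Type} (col : V → C) (c : C) (ψ : V → ℝ) (v : V) :
    cut col c ψ v = if col v = c then ψ v else 0 := rfl

theorem abs_mul_le' {a b c : ℝ} (ha : |a| ≤ 1) (hb : |b| ≤ c) : |a * b| ≤ c := by
  rw [abs_mul]; exact (mul_le_of_le_one_left (abs_nonneg _) ha).trans hb

theorem core {J K : Type} [Fintype J] [DecidableEq J] [Fintype K] [DecidableEq K] [Nonempty J]
    [Nonempty K] {l ρ : ℕ} (hl : 1 ≤ l) (hρ : ρ = 100 * l * Fintype.card J) {α : ℝ}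
    (hα : 400 * l * α = 1) (hα' : 1 ≤ α * Fintype.card J) (P0 : Lev J Unit α)
    (P1 : Lev (J × Unit) K α) (P2 : Col ρ → Lev ((J × Unit) × K) Unit α)
    (c01 : ∀ τ t, |∑ j, P1.p τ j * P0.p' t j| ≤ α * Fintype.card (J × Unit))
    (c12 : ∀ c τ t, |∑ j, (P2 c).p τ j * P1.p' t j| ≤ α * Fintype.card ((J × Unit) × K))
    (c22 : ∀ c c', c ≠ c' → ∀ τ t, |∑ j, (P2 c).p τ j * (P2 c').p t j| ≤
      α * Fintype.card ((J × Unit) × K)) :
    ∃ (X : Type) (m : MetricSpace X), Countable X ∧ (∀ x y, x ≠ y → 1 ≤ m.dist x y) ∧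
      Bad m.dist l := by
  classical
  have hn : 1 ≤ Fintype.card J := Fintype.card_pos
  have hκ : 1 ≤ Fintype.card K := Fintype.card_pos
  have hρ1 : 1 ≤ ρ := hρ ▸ Nat.mul_pos (by omega) hn
  obtain ⟨adj, col, hcomb⟩ := comb hρ1 l
  let I := (J ⊕ J × Unit) ⊕ ((J × Unit) × K ⊕ ((J × Unit) × K) × Unit)
  let γ0 : _ → Option (ℕ × ℕ) → I → ℝ := fun τ y =>
    Sum.elim (Sum.elim (P0.p τ) fun q => bar 1 y * P0.p' τ q) 0
  let γ1 : _ → _ → Option (ℕ × ℕ) → I → ℝ := fun ψ τ y =>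
    Sum.elim (Sum.elim 0 fun j => bar ψ y * P1.p τ j) (Sum.elim (fun q => bar ψ y * P1.p' τ q) 0)
  let γ2 : _ → _ → _ → Option (ℕ × ℕ) → I → ℝ := fun ψ c τ y => Sum.elim 0 (Sum.elim
    (fun j => bar ψ y * (P2 c).p τ j) fun q => bar (cut col c ψ) y * (P2 c).p' τ q)
  let Γ : Set (Option (ℕ × ℕ) → I → ℝ) := {γ | (∃ τ, γ0 τ = γ) ∨
    (∃ ψ τ, Psi adj ρ ψ ∧ γ1 ψ τ = γ) ∨ ∃ ψ c τ, Psi adj ρ ψ ∧ γ2 ψ c τ = γ}
  have p1 : Psi adj ρ 1 := ⟨by simp, by simp⟩
  have b1 : ∀ ψ, Psi adj ρ ψ → ∀ y, |bar ψ y| ≤ 1 := by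
    rintro ψ h (_ | y)
    exacts [by simp, h.1 y]
  have b2 : ∀ ψ c, Psi adj ρ ψ → ∀ y, |bar (cut col c ψ) y| ≤ 1 := by
    rintro ψ c h (_ | y)
    · simp
    · rw [bar_some, cut_apply]
      split_ifs
      exacts [h.1 y, by simp]
  obtain ⟨m, hm, C⟩ := exists_ctx Γ (by
    rintro _ (⟨τ, rfl⟩ | ⟨ψ, τ, h, rfl⟩ | ⟨ψ, c, τ, h, rfl⟩) y ((i | i) | (i | i))
    exacts [(P0.s _ _).abs.le, abs_mul_le' (b1 _ p1 y) (P0.s' _ _).abs.le, by simp [γ0],
      by simp [γ0], by simp [γ1], abs_mul_le' (b1 _ h y) (P1.s _ _).abs.le,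
      abs_mul_le' (b1 _ h y) (P1.s' _ _).abs.le, by simp [γ1], by simp [γ2], by simp [γ2],
      abs_mul_le' (b1 _ h y) ((P2 c).s _ _).abs.le,
      abs_mul_le' (b2 _ c h y) ((P2 c).s' _ _).abs.le])
  obtain ⟨n, hn'⟩ : ∃ n, n = Fintype.card J := ⟨_, rfl⟩
  obtain ⟨N, hN⟩ : ∃ N, N = n * Fintype.card K := ⟨_, rfl⟩
  have hnN : n ≤ N := hN ▸ Nat.le_mul_of_pos_right _ hκ
  obtain ⟨r, hr⟩ : ∃ r, r = 400 * l * (4 * N + 2) := ⟨_, rfl⟩
  obtain ⟨RU, hU⟩ : ∃ RU, RU = 200 * l * (1 + 4 * N * r) := ⟨_, rfl⟩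
  obtain ⟨RE, hE⟩ : ∃ RE, RE = 200 * l * (1 + n * RU + 2 * N * r) := ⟨_, rfl⟩
  rw [← hn'] at hn hρ hα'
  have r0 : 0 < r := hr ▸ by positivity
  have r1 : r ≤ RU := by
    have : 1 ≤ l * N := Nat.mul_pos hl (by omega)
    nlinarith
  have r2 : RU ≤ RE := by
    have : 1 ≤ l * n := Nat.mul_pos hl hn
    nlinarith [Nat.zero_le (l * N * r)]
  let R : I → ℕ := Sum.elim (Sum.elim (fun _ => RE) fun _ => RU) fun _ => r
  have hR : ∀ i, r ≤ R i := by
    rintro ((i | i) | i)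
    exacts [r1.trans r2, r1, le_rfl]
  have hR0 : ∀ i, 0 < R i := fun i => r0.trans_le (hR i)
  refine ⟨_, m, inferInstance, hm, {none} ×ˢ Fintype.piFinset fun i => Icc 0 (R i : ℤ), 1 / 100,
    by norm_num, fun S B hS hA hB => ?_⟩
  have l0 : (0 : ℝ) < l := mod_cast hl
  have n0 : (0 : ℝ) < n := mod_cast hn
  have α0 : 0 < α := by nlinarith
  have cU : (Fintype.card (J × Unit) : ℝ) = n := by simp [hn']
  have cW : (Fintype.card ((J × Unit) × K) : ℝ) = N := by simp [hN, hn']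
  have cV : (Fintype.card (((J × Unit) × K) × Unit) : ℝ) = N := by simp [hN, hn']
  have nN : (n : ℝ) ≤ N := mod_cast hnN
  have err : ∀ k : ℝ, k ≤ N → l * (2 * α) + (4 * k + 2) * (2 * l / r) ≤ 1 / 100 := fun k hk => by
    have : (4 * (N : ℝ) + 2) * (2 * l / r) = 1 / 200 := by
      rw [hr]; push_cast; field_simp; norm_num
    have h2 : (0 : ℝ) ≤ 2 * l / r := by positivity
    nlinarith
  let ιE : J → I := fun j => .inl (.inl j)
  let ιU : J × Unit → I := fun j => .inl (.inr j)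
  let ιW : (J × Unit) × K → I := fun j => .inr (.inl j)
  let ιV : ((J × Unit) × K) × Unit → I := fun j => .inr (.inr j)
  have g0 : ∀ τ p, lin (γ0 τ) p = (1 : Option (ℕ × ℕ) → ℝ) p.1 * ∑ j, P0.p τ j * p.2 (ιE j) +
      bar 1 p.1 * ∑ q, P0.p' τ q * p.2 (ιU q) := fun τ p => by
    simp [lin, γ0, I, ιE, ιU, mul_sum, mul_assoc]
  have g1 : ∀ ψ τ p, lin (γ1 ψ τ) p = bar ψ p.1 * ∑ j, P1.p τ j * p.2 (ιU j) +
      bar ψ p.1 * ∑ q, P1.p' τ q * p.2 (ιW q) := fun ψ τ p => by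
    simp [lin, γ1, I, ιW, ιU, mul_sum, mul_assoc]
  have g2 : ∀ ψ c τ p, lin (γ2 ψ c τ) p = bar ψ p.1 * ∑ j, (P2 c).p τ j * p.2 (ιW j) +
      bar (cut col c ψ) p.1 * ∑ q, (P2 c).p' τ q * p.2 (ιV q) := fun ψ c τ p => by
    simp [lin, γ2, I, ιW, ιV, mul_sum, mul_assoc]
  have m0 : ∀ τ, γ0 τ ∈ Γ := fun τ => .inl ⟨τ, rfl⟩
  have m1 : ∀ ψ, Psi adj ρ ψ → ∀ τ, γ1 ψ τ ∈ Γ := fun ψ h τ => .inr (.inl ⟨ψ, τ, h, rfl⟩)
  have m2 : ∀ ψ c, Psi adj ρ ψ → ∀ τ, γ2 ψ c τ ∈ Γ := fun ψ c h τ =>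
    .inr (.inr ⟨ψ, c, τ, h, rfl⟩)
  have lE : ∀ j, Lip m.dist 1 (co (ιE j) 1) := fun j =>
    lip_avg (fun τ => C.lip _ (m0 τ)) (fun τ => P0.s τ j) (P0.up g0 j)
  have t0 : ∀ x, |tr R S ιE (some x) 1 - tr R S ιU (some x) (bar 1)| ≤ 1 / 100 := fun x =>
    (C.level l0.le hS r0 hR P0 g0 m0 (by rw [cU]; linarith) (by
      rintro τ _ (⟨t, rfl⟩ | ⟨φ, t, h, rfl⟩ | ⟨φ, c, t, h, rfl⟩)
      · simpa only [γ0, ιE, ιU, Sum.elim_inl, Sum.elim_inr, bar_some, Pi.one_apply, one_mul]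
          using P0.ker t τ
      · simp only [γ1, ιE, ιU, Sum.elim_inl, Sum.elim_inr, bar_some, Pi.zero_apply, zero_mul,
          sum_const_zero, mul_zero, zero_sub, abs_neg, mul_assoc, ← mul_sum]
        exact (abs_mul_le' (h.1 x) (c01 t τ)).trans (le_mul_of_one_le_left (by positivity) one_le_two)
      · simp only [γ2, ιE, ιU, Sum.elim_inl, Pi.zero_apply, zero_mul, sum_const_zero, mul_zero,
          sub_zero, abs_zero]
        positivity)).trans (err _ (cU.le.trans nN))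
  have t1 : ∀ ψ, Psi adj ρ ψ → ∀ x,
      |tr R S ιU (some x) (bar ψ) - tr R S ιW (some x) (bar ψ)| ≤ 1 / 100 := fun ψ hψ x =>
    (C.level l0.le hS r0 hR P1 (g1 ψ) (m1 ψ hψ) (by rw [cW]; nlinarith) (by
      rintro τ _ (⟨t, rfl⟩ | ⟨φ, t, h, rfl⟩ | ⟨φ, c, t, h, rfl⟩)
      · simp only [γ0, ιW, ιU, Sum.elim_inl, Sum.elim_inr, bar_some, Pi.one_apply, one_mul,
          Pi.zero_apply, zero_mul, sum_const_zero, sub_zero, abs_mul, Nat.abs_cast,
          mul_comm (P0.p' _ _)]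
        refine (mul_le_mul_of_nonneg_left (c01 τ t) (by positivity)).trans ?_
        rw [Fintype.card_prod (J × Unit) K]
        push_cast
        nlinarith [mul_pos α0 (mul_pos (cU ▸ n0) (Nat.cast_pos.2 hκ : (0 : ℝ) < Fintype.card K))]
      · simp only [γ1, ιW, ιU, Sum.elim_inl, Sum.elim_inr, bar_some, mul_assoc (φ x), ← mul_sum,
          mul_left_comm _ (φ x), ← mul_sub]
        exact abs_mul_le' (h.1 x) (P1.ker t τ)
      · simp only [γ2, ιW, ιU, Sum.elim_inl, Sum.elim_inr, bar_some, Pi.zero_apply, zero_mul,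
          sum_const_zero, mul_zero, zero_sub, abs_neg, mul_assoc, ← mul_sum]
        exact (abs_mul_le' (h.1 x) (c12 c t τ)).trans
          (le_mul_of_one_le_left (by positivity) one_le_two))).trans (err _ cW.le)
  have t2 : ∀ ψ, Psi adj ρ ψ → ∀ x, |tr R S ιW (some x) (bar ψ) -
      tr R S ιV (some x) (bar (cut col (col x) ψ))| ≤ 1 / 100 := fun ψ hψ x =>
    (C.level l0.le hS r0 hR (P2 (col x)) (g2 ψ _) (m2 ψ _ hψ) (by rw [cV]; nlinarith) (by
      rintro τ _ (⟨t, rfl⟩ | ⟨φ, t, h, rfl⟩ | ⟨φ, c, t, h, rfl⟩)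
      · simp only [γ0, ιW, ιV, Sum.elim_inr, Pi.zero_apply, zero_mul, sum_const_zero, mul_zero,
          sub_zero, abs_zero]
        positivity
      · simp only [γ1, ιW, ιV, Sum.elim_inl, Sum.elim_inr, bar_some, Pi.zero_apply, zero_mul,
          sum_const_zero, sub_zero, mul_assoc, ← mul_sum, Fintype.card_unit, Nat.cast_one, one_mul,
          mul_comm (P1.p' _ _), cV]
        exact (abs_mul_le' (h.1 x) (cW ▸ c12 _ τ t)).trans
          (le_mul_of_one_le_left (by positivity) one_le_two)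
      · by_cases e : col x = c
        · subst e
          simp only [γ2, ιW, ιV, Sum.elim_inl, Sum.elim_inr, bar_some, mul_assoc (φ x), ← mul_sum,
            mul_left_comm _ (φ x), ← mul_sub, cut_apply, if_true]
          exact abs_mul_le' (h.1 x) ((P2 _).ker t τ)
        · simp only [γ2, ιW, ιV, Sum.elim_inl, Sum.elim_inr, bar_some, cut_apply, if_neg e,
            zero_mul, sum_const_zero, sub_zero, mul_assoc, ← mul_sum, Fintype.card_unit,
            Nat.cast_one, one_mul, cV]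
          exact (abs_mul_le' (h.1 x) (cW ▸ c22 _ _ (Ne.symm e) t τ)).trans
            (le_mul_of_one_le_left (by positivity) one_le_two))).trans (err _ cV.le)
  have ρ0 : (0 : ℝ) < ρ := mod_cast hρ1
  have U0 : (0 : ℝ) < RU := mod_cast r0.trans_le r1
  have sE : ∀ x, |tr R S ιE (some x) 1 - tr R S ιE none 1| ≤ 1 / 100 := fun x =>
    (C.tr_sub l0.le hS hR0 ιE lE (β := 1 + n * RU + 2 * N * r) (by
      rw [add_assoc]; exact le_add_of_nonneg_right (by positivity))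
      (w := Sum.elim (Sum.elim 0 1) 1) (by
        rintro _ (⟨t, rfl⟩ | ⟨φ, t, h, rfl⟩ | ⟨φ, c, t, h, rfl⟩) ((i | i) | (i | i))
        any_goals simp [γ0, γ1, γ2, abs_mul, (P0.s' _ _).abs, (P1.s _ _).abs, (P1.s' _ _).abs,
          ((P2 _).s _ _).abs, ((P2 _).s' _ _).abs]
        exacts [h.1 x, h.1 x, h.1 x, b2 φ c h (some x)]) (by
        simp only [I, R, Fintype.sum_sum_type, Sum.elim_inl, Sum.elim_inr, Pi.zero_apply,
          Pi.one_apply, sum_const, card_univ, nsmul_eq_mul, cU, cV, cW, Fintype.card_sum,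
          Nat.cast_add]
        linarith) (fun _ => rfl)).trans_eq (by
      rw [hE]; push_cast; field_simp; norm_num)
  have sU : ∀ ψ, Psi adj ρ ψ → ∀ x y, adj x y →
      |tr R S ιU (some x) (bar ψ) - tr R S ιU (some y) (bar ψ)| ≤ 3 / 100 := fun ψ hψ x y h =>
    (C.tr_sub l0.le hS hR0 ιU (fun j => lip_avg (fun τ => C.lip _ (m1 ψ hψ τ))
      (fun τ => P1.s τ j) (P1.up (g1 ψ) j)) (β := 1 + 4 * N * r + n * RU / ρ) (by
      rw [add_assoc]; exact le_add_of_nonneg_right (by positivity))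
      (w := Sum.elim (Sum.elim 0 fun _ => 1 / ρ) 2) (by
        have e : ∀ φ : Option (ℕ × ℕ) → ℝ, (∀ y, |φ y| ≤ 1) → |φ x - φ y| ≤ 2 := fun φ h =>
          (abs_sub _ _).trans (by linarith [h x, h y])
        rintro _ (⟨t, rfl⟩ | ⟨φ, t, h', rfl⟩ | ⟨φ, c, t, h', rfl⟩) ((i | i) | (i | i))
        any_goals simp [γ0, γ1, γ2, ← sub_mul, abs_mul, (P1.s _ _).abs, (P1.s' _ _).abs,
          ((P2 _).s _ _).abs, ((P2 _).s' _ _).abs]
        exacts [by simpa using h'.2 x y h, e _ (b1 φ h'), e _ (b1 φ h'), e _ (b2 φ c h')]) (by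
        simp only [I, R, Fintype.sum_sum_type, Sum.elim_inl, Sum.elim_inr,
          Pi.ofNat_apply, sum_const, card_univ, nsmul_eq_mul, cU, cV, cW, Fintype.card_sum,
          Nat.cast_add]
        ring_nf
        linarith) (fun _ => rfl)).trans_eq (by
      have e : (1 + 4 * N * r : ℝ) = RU / (200 * l) := by rw [hU]; push_cast; field_simp
      rw [e, hρ]; push_cast; field_simp; norm_num)
  have sF := tr_fix (S := S) (R := R) hR0 ιE (ψ := 1) (x := none) fun j z hz =>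
    hA _ (lE j) _ (mem_product.2 ⟨mem_singleton_self _, Fintype.mem_piFinset.2 fun i =>
      mem_Icc.2 (hz i)⟩)
  have z0 : ∀ x ψ, (∀ j, S (co (ιV j) ψ) = 0) → tr R S ιV x ψ = 0 := fun x ψ h => by
    simp [tr_apply, DS, h]
  refine hcomb (fun x => tr R S ιV (some x) ∘ₗ bar ∘ₗ cut col (col x))
    ((B.image Prod.fst).eraseNone) (fun x ψ h => z0 _ _ fun j => hB _ ?_) (fun x ψ h => ?_)
    (fun x y ψ h hψ => ?_) (fun x ψ hψ => (le_abs_self _).trans (C.tr_le l0.le hS hR0 ιV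
      (fun j => lip_avg (fun τ => C.lip _ (m2 ψ _ hψ τ)) (fun τ => (P2 _).s' τ j)
        ((P2 _).low (g2 ψ _) j)) _)) fun x => ?_
  · rintro ⟨_ | b, z⟩ hb
    · simp [co]
    · simp [co, cut_apply, h b (mem_eraseNone.2 (mem_image_of_mem _ hb))]
  · have : cut col (col x) ψ = 0 := funext fun b => by
      rw [cut_apply]
      split_ifs with e
      exacts [h b e, rfl]
    simp [this]
  · simp only [LinearMap.comp_apply]
    linarith [abs_le.1 (t1 ψ hψ x), abs_le.1 (t2 ψ hψ x), abs_le.1 (t1 ψ hψ y),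
      abs_le.1 (t2 ψ hψ y), abs_le.1 (sU ψ hψ x y h)]
  · simp only [LinearMap.comp_apply]
    rw [Pi.one_apply] at sF
    linarith [abs_le.1 (t1 1 p1 x), abs_le.1 (t2 1 p1 x), abs_le.1 (t0 x), abs_le.1 (sE x),
      abs_le.1 sF]

theorem gadget {l : ℕ} (hl : 1 ≤ l) :
    ∃ (X : Type) (m : MetricSpace X), Countable X ∧ (∀ x y, x ≠ y → 1 ≤ m.dist x y) ∧
      Bad m.dist l := by
  obtain ⟨a, ha⟩ : ∃ a : ℕ, a = 400 * l := ⟨_, rfl⟩
  obtain ⟨k, hk⟩ : ∃ k, 7200 * l * a ^ 2 < Fintype.card (Fin k → Bool) :=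
    ⟨_, by simpa using Nat.lt_two_pow_self⟩
  obtain ⟨κ, hκ⟩ : ∃ κ, κ = Fintype.card (Fin k → Bool) := ⟨_, rfl⟩
  obtain ⟨m, hm⟩ : ∃ m, 6912 * a ^ 6 * κ ^ 2 < Fintype.card (Fin m → Bool) :=
    ⟨_, by simpa using Nat.lt_two_pow_self⟩
  obtain ⟨n, hn⟩ : ∃ n, n = Fintype.card (Fin m → Bool) := ⟨_, rfl⟩
  rw [← hκ] at hk
  rw [← hn] at hm
  have a1 : (1 : ℝ) ≤ a := mod_cast (by omega)
  have κ1 : (1 : ℝ) ≤ κ := mod_cast (by omega)
  have n1 : (1 : ℝ) ≤ n := mod_cast (by omega)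
  have hk' : (7200 * l * a ^ 2 : ℝ) < κ := mod_cast hk
  have hm' : (6912 * a ^ 6 * κ ^ 2 : ℝ) < n := mod_cast hm
  have α0 : (0 : ℝ) ≤ 1 / a := by positivity
  have H : (18 * κ ^ 2 * n ^ 2 : ℝ) < Real.exp ((1 / a) ^ 2 * n / 4) := by
    refine lt_of_lt_of_le ?_ (Real.pow_div_factorial_le_exp _ (by positivity) 3)
    rw [show ((1 / a) ^ 2 * n / 4 : ℝ) ^ 3 / (3 : ℕ).factorial = n ^ 2 * (n / (384 * a ^ 6)) by
      simp only [Nat.factorial]; push_cast; field_simp; norm_num, mul_comm]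
    refine mul_lt_mul_of_pos_left ((lt_div_iff₀ (by positivity)).2 (by linarith)) (by positivity)
  have H' : (18 * κ ^ 2 * n ^ 2 : ℝ) < Real.exp ((1 / a) ^ 2 * n / 2) :=
    H.trans_le (Real.exp_le_exp.2 (by gcongr; norm_num))
  have n2 : (0 : ℝ) < n ^ 2 := by positivity
  obtain ⟨P0, -, -⟩ := exists_lev (C := Unit) (F := Empty) (had_pi m) had_unit (fun q => q.elim)
    (fun q => q.elim) α0 (by
      simp only [← hn, Fintype.card_unit, Fintype.card_empty]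
      push_cast
      nlinarith [mul_le_mul_of_nonneg_left (one_le_pow₀ κ1 (n := 2)) n2.le])
  obtain ⟨P1, c01, -⟩ := exists_lev (C := Unit) ((had_pi m).prod had_unit) (had_pi k) (P0 ()).p'
    (P0 ()).s' α0 (by
      simp only [← hn, ← hκ, Fintype.card_unit, Fintype.card_prod, Fintype.card_bool, mul_one]
      push_cast
      nlinarith [mul_le_mul_of_nonneg_left κ1 n2.le, mul_le_mul_of_nonneg_left κ1
        (mul_pos n2 (zero_lt_one.trans_le κ1)).le])
  obtain ⟨P2, c12, c22⟩ := exists_lev (C := Col (100 * l * Fintype.card (Fin m → Bool)))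
    (((had_pi m).prod had_unit).prod (had_pi k)) had_unit (P1 ()).p' (P1 ()).s' α0 (by
      have h1 := card_Col (ρ := 100 * l * Fintype.card (Fin m → Bool))
        (Nat.mul_pos (by omega) Fintype.card_pos)
      have h2 : (6 : ℝ) ^ (9 * (100 * l * n)) ≤ Real.exp ((1 / a) ^ 2 * (n * κ) / 4) := by
        refine (pow_le_pow_left₀ (b := Real.exp 1 ^ 2) (by norm_num)
          (by nlinarith [Real.exp_one_gt_d9]) _).trans ?_
        rw [← pow_mul, Real.exp_one_pow, Real.exp_le_exp, div_pow, one_pow, div_mul_eq_mul_div,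
          div_div, le_div_iff₀ (by positivity)]
        push_cast
        nlinarith
      have h3 : Real.exp ((1 / a) ^ 2 * n / 4) ≤ Real.exp ((1 / a) ^ 2 * (n * κ) / 4) := by
        gcongr
        exact le_mul_of_one_le_right (by positivity) κ1
      have h4 : (1 : ℝ) ≤ Real.exp ((1 / a) ^ 2 * (n * κ) / 4) := Real.one_le_exp (by positivity)
      have h5 := (Nat.cast_le (α := ℝ)).2 h1
      simp only [← hn, ← hκ, Fintype.card_unit, Fintype.card_prod, Fintype.card_bool, mul_one]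
        at h5 ⊢
      push_cast at h5 ⊢
      rw [← add_halves (_ / 2), Real.exp_add, div_div, show (2 * 2 : ℝ) = 4 by norm_num]
      refine lt_of_le_of_lt ?_ (mul_lt_mul_of_pos_left (H.trans_le h3) (by positivity))
      nlinarith [mul_le_mul_of_nonneg_left (h5.trans h2) (by positivity : (0 : ℝ) ≤ κ ^ 2 * n ^ 2),
        mul_le_mul_of_nonneg_left h4 (by positivity : (0 : ℝ) ≤ κ ^ 2 * n ^ 2)])
  refine core hl rfl (by rw [ha]; push_cast; field_simp) ?_ (P0 ()) (P1 ()) P2 (c01 ()) c12 c22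
  rw [← hn, one_div, le_inv_mul_iff₀ (by positivity)]
  nlinarith [one_le_pow₀ κ1 (n := 2), le_self_pow₀ a1 (n := 6) (by norm_num),
    mul_le_mul_of_nonneg_left (one_le_pow₀ κ1 (n := 2)) (by positivity : (0 : ℝ) ≤ a ^ 6)]

end Crest.Agent.R115
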