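import Crest.Prelude.Def_LipschitzFree
import Crest.Agent.R115.Gadget

/-!
Row 115: free spaces over uniformly discrete spaces have the approximation property, and a
bounded approximation gives finitely determined operators on functions.
-/

set_option autoImplicit false
set_option linter.style.haveILetI false

open Finset Crest.AnalysisR UniformSpace

namespace Crest.Agent.R115

variable (P : PointedMetric)

theorem norm_le {a : P.Mol} {c : ℝ}
    (h : ∀ f, Lip P.metric.dist 1 f → f P.base = 0 → |P.pairing a f| ≤ c) : ‖a‖ ≤ c :=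
  letI := P.metric
  ciSup_le fun f : P.Lip1 => h f.1 (fun p q => f.2.1.dist_le_mul p q) f.2.2

theorem pairing_le (a : P.Mol) {f : P.M → ℝ} {C : ℝ} (hC : 0 < C) (h : Lip P.metric.dist C f)
    (h0 : f P.base = 0) : |P.pairing a f| ≤ C * ‖a‖ := by
  letI := P.metric
  have h1 : |P.pairing a fun x => f x / C| ≤ ‖a‖ := le_ciSup (P.freeNorm_bddAbove a)
    ⟨fun x => f x / C, LipschitzWith.of_dist_le_mul fun p q => by
      rw [Real.dist_eq, ← sub_div, abs_div, abs_of_pos hC, div_le_iff₀' hC, NNReal.coe_one, one_mul]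
      exact h p q, by simp [h0]⟩
  have h2 : P.pairing a (fun x => f x / C) = P.pairing a f / C := by
    simp only [PointedMetric.pairing, Finsupp.sum, sum_div, mul_div_assoc]
  rwa [h2, abs_div, abs_of_pos hC, div_le_iff₀' hC] at h1

theorem pairing_sub (a b : P.Mol) (f : P.M → ℝ) :
    P.pairing (a - b) f = P.pairing a f - P.pairing b f := by
  rw [sub_eq_add_neg, P.pairing_add, P.pairing_neg, sub_eq_add_neg]

/-- multiplication of a molecule by a function -/
noncomputable def mul (θ : P.M → ℝ) : P.Mol →ₗ[ℝ] P.Mol where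
  toFun a := Finsupp.onFinset (P.coeffs a).support (fun x => θ x * P.coeffs a x) fun _ h =>
    Finsupp.mem_support_iff.2 (right_ne_zero_of_mul h)
  map_add' _ _ := Finsupp.ext fun _ => mul_add _ _ _
  map_smul' _ _ := Finsupp.ext fun _ => mul_left_comm _ _ _

theorem coeffs_mul (θ : P.M → ℝ) (a : P.Mol) (x : P.M) :
    P.coeffs (mul P θ a) x = θ x * P.coeffs a x := rfl

theorem norm_mul_le {θ : P.M → ℝ} {C : ℝ} (hC : 0 < C)
    (h : ∀ f, Lip P.metric.dist 1 f → f P.base = 0 → Lip P.metric.dist C (θ * f)) (a : P.Mol) :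
    ‖mul P θ a‖ ≤ C * ‖a‖ := norm_le P fun f h1 h2 => by
  have : P.pairing (mul P θ a) f = P.pairing a (θ * f) :=
    (Finsupp.sum_of_support_subset (P.coeffs (mul P θ a)) (s := (P.coeffs a).support)
      (fun x hx => Finsupp.mem_support_iff.2 (right_ne_zero_of_mul (Finsupp.mem_support_iff.1 hx)))
      _ (by simp)).trans (sum_congr rfl fun x _ => by simp only [coeffs_mul, Pi.mul_apply]; ring)
  rw [this]
  exact pairing_le P a hC (h f h1 h2) (by simp [h2])

/-- point evaluations -/
noncomputable def pt (x : P.M) : P.Mol := Finsupp.single x 1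

theorem pairing_pt (x : P.M) (f : P.M → ℝ) : P.pairing (pt P x) f = f x :=
  (Finsupp.sum_single_index (zero_mul _)).trans (one_mul _)

theorem norm_pt_sub (x y : P.M) : ‖pt P x - pt P y‖ ≤ P.metric.dist x y :=
  norm_le P fun f h _ => by
    rw [pairing_sub, pairing_pt, pairing_pt]; exact (h x y).trans_eq (one_mul _)

/-- elements of the free space given by molecules supported in `F` -/
noncomputable def W (F : Finset P.M) : Submodule ℝ P.FreeSpace :=
  Submodule.map (M := P.Mol) Completion.toComplₗᵢ.toLinearMap (Finsupp.supported ℝ ℝ (F : Set P.M))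

instance (F : Finset P.M) : FiniteDimensional ℝ (W P F) :=
  @Module.Finite.map _ _ _ _ _ _ _ _ _
    (Module.Finite.equiv (Finsupp.supportedEquivFinsupp (M := ℝ) (R := ℝ) (F : Set P.M)).symm) _

theorem exists_net {K : Set P.FreeSpace} (hK : IsCompact K) {η : ℝ} (hη : 0 < η) :
    ∃ N : Finset P.Mol, ∀ x ∈ K, ∃ a ∈ N, ‖x - a‖ < η := by
  obtain ⟨N, hN⟩ := hK.elim_finite_subcover (fun a : P.Mol => Metric.ball (a : P.FreeSpace) η)
    (fun _ => Metric.isOpen_ball) fun x _ => by
      obtain ⟨a, ha⟩ := Metric.denseRange_iff.1 Completion.denseRange_coe x η hη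
      exact Set.mem_iUnion.2 ⟨a, ha⟩
  refine ⟨N, fun x hx => ?_⟩
  obtain ⟨a, h1, h2⟩ := Set.mem_iUnion₂.1 (hN hx)
  exact ⟨a, h1, mem_ball_iff_norm.1 h2⟩

theorem exists_cutoff {r : ℝ} (hr : 0 < r) : ∃ ψ : P.M → ℝ,
    (∀ x, P.metric.dist x P.base ≤ r → ψ x = 1) ∧
    (∀ f, Lip P.metric.dist 1 f → f P.base = 0 → ∀ x, |ψ x * f x| ≤ 2 * r) ∧
    ∀ f, Lip P.metric.dist 1 f → f P.base = 0 → Lip P.metric.dist 3 (ψ * f) := by
  letI := P.metric
  let ψ : P.M → ℝ := fun x => max (min (2 - dist x P.base / r) 1) 0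
  have h1 : ∀ x, |ψ x| ≤ 1 := fun x =>
    abs_le.2 ⟨le_max_of_le_right (by norm_num), max_le (min_le_right _ _) zero_le_one⟩
  have h2 : ∀ x, 2 * r < dist x P.base → ψ x = 0 := fun x h =>
    max_eq_right (min_le_of_left_le (by linarith [(lt_div_iff₀ hr).2 h]))
  have h3 : ∀ x y, |ψ x - ψ y| ≤ dist x y / r := fun x y =>
    (abs_max_sub_max_le_abs _ _ _).trans ((abs_min_sub_min_le_max _ _ _ _).trans (max_le (by
      rw [sub_sub_sub_cancel_left, ← sub_div, abs_div, abs_of_pos hr, abs_sub_comm]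
      exact div_le_div_of_nonneg_right (abs_dist_sub_le _ _ _) hr.le) (by
      rw [sub_self, abs_zero]; positivity)))
  have h4 : ∀ f, Lip dist 1 f → f P.base = 0 → ∀ x, |f x| ≤ dist x P.base := fun f h h0 x => by
    simpa [h0] using h x P.base
  have h5 : ∀ f, Lip dist 1 f → f P.base = 0 → ∀ x y, dist y P.base ≤ 2 * r →
      |ψ x * f x - ψ y * f y| ≤ 3 * dist x y := fun f h h0 x y hy => by
    rw [show ψ x * f x - ψ y * f y = ψ x * (f x - f y) + (ψ x - ψ y) * f y by ring]
    refine (abs_add_le _ _).trans ((add_le_add (abs_mul_le' (h1 x) (h x y)) ((abs_mul _ _).trans_le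
      (mul_le_mul (h3 x y) ((h4 f h h0 y).trans hy) (abs_nonneg _) (by positivity)))).trans_eq ?_)
    field_simp
    norm_num
  refine ⟨ψ, fun x h => (congrArg (max · 0) (min_eq_right ?_)).trans (max_eq_left zero_le_one),
    fun f h h0 x => ?_, fun f h h0 x y => ?_⟩
  · linarith [(div_le_one hr).2 h]
  · rcases le_or_gt (dist x P.base) (2 * r) with e | e
    · exact abs_mul_le' (h1 x) ((h4 f h h0 x).trans e)
    · rw [h2 x e, zero_mul, abs_zero]; positivity
  · rcases le_or_gt (dist y P.base) (2 * r) with e | e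
    · exact h5 f h h0 x y e
    rcases le_or_gt (dist x P.base) (2 * r) with e' | e'
    · rw [abs_sub_comm, dist_comm]; exact h5 f h h0 y x e'
    · simp [h2 x e', h2 y e]

theorem approx (hs : ∀ x y, x ≠ y → 1 ≤ P.metric.dist x y) {K : Set P.FreeSpace}
    (hK : IsCompact K) {ε : ℝ} (hε : 0 < ε) :
    ∃ (F : Finset P.M) (U : P.FreeSpace →L[ℝ] P.FreeSpace), (∀ x, U x ∈ W P F) ∧
      ∀ x ∈ K, ‖U x - x‖ ≤ ε := by
  classical
  obtain ⟨N, hN⟩ := exists_net P hK (η := ε / 8) (by positivity)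
  obtain ⟨r, hr⟩ := (insert 1 ((N.biUnion fun a => (P.coeffs a).support).image
    fun x => P.metric.dist x P.base)).exists_le
  have r1 : 1 ≤ r := hr _ (mem_insert_self _ _)
  obtain ⟨ψ, h1, h2, h3⟩ := exists_cutoff P (zero_lt_one.trans_le r1)
  obtain ⟨N', hN'⟩ := exists_net P hK (η := ε / (18 * r)) (by positivity)
  let F := N'.biUnion fun a => (P.coeffs a).support
  let θ : P.M → ℝ := fun x => if x ∈ F then ψ x else 0
  have h4 := norm_mul_le P (θ := θ) (C := 4 * r) (by positivity) fun f h h0 x y => by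
    have : ∀ x, |θ x * f x| ≤ 2 * r := fun x => by
      simp only [θ]
      split_ifs
      exacts [h2 f h h0 x, by rw [zero_mul, abs_zero]; positivity]
    by_cases e : x = y
    · letI := P.metric
      simp [e]
    · refine (abs_sub _ _).trans ((add_le_add (this x) (this y)).trans ?_)
      nlinarith [hs x y e]
  let U := ((mul P θ).mkContinuous _ h4).completion
  have hU : ∀ a : P.Mol, U a = mul P θ a := ContinuousLinearMap.completion_apply_coe _
  have hU' : ∀ x, ‖U x‖ ≤ 4 * r * ‖x‖ := fun x => by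
    induction x using Completion.induction_on with
    | hp => exact isClosed_le (by fun_prop) (by fun_prop)
    | ih a => rw [hU, Completion.norm_coe, Completion.norm_coe]; exact h4 a
  refine ⟨F, U, fun x => ?_, fun x hx => ?_⟩
  · induction x using Completion.induction_on with
    | hp => exact (W P F).closed_of_finiteDimensional.preimage U.continuous
    | ih a =>
      refine ⟨mul P θ a, fun x hx => ?_, (hU a).symm⟩
      by_contra e
      exact left_ne_zero_of_mul (Finsupp.mem_support_iff.1 hx) (if_neg e)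
  obtain ⟨a, h5, h6⟩ := hN x hx
  obtain ⟨b, h7, h8⟩ := hN' x hx
  have e1 : mul P θ b = mul P ψ b := Finsupp.ext fun z => by
    change θ z * P.coeffs b z = ψ z * P.coeffs b z
    by_cases e : P.coeffs b z = 0
    · rw [e, mul_zero, mul_zero]
    · rw [show θ z = ψ z from if_pos (mem_biUnion.2 ⟨b, h7, Finsupp.mem_support_iff.2 e⟩)]
  have e2 : mul P ψ a = a := Finsupp.ext fun z => by
    change ψ z * P.coeffs a z = P.coeffs a z
    by_cases e : P.coeffs a z = 0
    · rw [e, mul_zero]
    · rw [h1 z (hr _ (mem_insert_of_mem (mem_image_of_mem _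
        (mem_biUnion.2 ⟨a, h5, Finsupp.mem_support_iff.2 e⟩)))), one_mul]
  have e3 : U x - x = U (x - b) + (mul P ψ (b - a) : P.Mol) - (x - a) := by
    rw [map_sub, map_sub, hU, e1, e2, Completion.coe_sub]
    abel
  have e4 : ‖b - a‖ ≤ ‖x - a‖ + ‖x - b‖ := by
    rw [← Completion.norm_coe, Completion.coe_sub, ← sub_sub_sub_cancel_left _ _ x]
    exact norm_sub_le _ _
  have e5 := norm_mul_le P three_pos h3 (b - a)
  rw [lt_div_iff₀ (by positivity)] at h8
  rw [← Completion.norm_coe] at e5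
  rw [e3]
  refine (norm_sub_le _ _).trans ((add_le_add_left (norm_add_le _ _) _).trans ?_)
  nlinarith [hU' (x - b), mul_le_mul_of_nonneg_left r1 (norm_nonneg (x - b))]

theorem hasAP (hs : ∀ x y, x ≠ y → 1 ≤ P.metric.dist x y) : HasAP P.FreeSpace := fun K hK ε hε => by
  obtain ⟨F, U, h1, h2⟩ := approx P hs hK hε
  exact ⟨U, Submodule.finiteDimensional_of_le (S₂ := W P F) (by rintro _ ⟨x, rfl⟩; exact h1 x), h2⟩

theorem not_hasBAP (hs : ∀ x y, x ≠ y → 1 ≤ P.metric.dist x y)
    (hb : ∀ l : ℕ, 1 ≤ l → Bad P.metric.dist l) : ¬HasBAP P.FreeSpace := by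
  classical
  rintro ⟨lam, H⟩
  obtain ⟨l, hl⟩ := exists_nat_ge (lam + 1)
  obtain ⟨A, δ, δ0, hA⟩ := hb (l + 1) (by omega)
  have hK := (A.finite_toSet.image fun a => (pt P a : P.FreeSpace)).isCompact
  obtain ⟨T, h1, h2, h3⟩ := H _ hK (δ / 2) (by positivity)
  have := FiniteDimensional.proper_real (LinearMap.range T.toLinearMap)
  obtain ⟨F, U, h4, h5⟩ := approx P hs (((isCompact_closedBall
    (0 : LinearMap.range T.toLinearMap) ‖T‖).image continuous_subtype_val).union
    (hK.image T.continuous)) (ε := min 1 (δ / 2)) (by positivity)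
  have h6 : ‖U ∘L T - T‖ ≤ 1 := ContinuousLinearMap.opNorm_le_of_unit_norm zero_le_one fun x hx =>
    (h5 _ (Or.inl ⟨⟨T x, x, rfl⟩, mem_closedBall_zero_iff.2 (T.unit_le_opNorm x hx.le), rfl⟩)).trans
      (min_le_left _ _)
  have h7 : ‖U ∘L T‖ ≤ (l + 1 : ℕ) := by
    have := norm_add_le (U ∘L T - T) T
    rw [sub_add_cancel] at this
    push_cast
    linarith
  choose m hm hm' using fun z => h4 (T (pt P z))
  replace hm' : ∀ z, ((m z : P.Mol) : P.FreeSpace) = U (T (pt P z)) := hm'
  have h8 : ∀ h, Lip P.metric.dist 1 h → ∀ a : P.Mol,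
      |P.pairing a fun x => h x - h P.base| ≤ ‖(a : P.FreeSpace)‖ := fun h hh a => by
    rw [Completion.norm_coe, ← one_mul ‖a‖]
    exact pairing_le P a one_pos (fun p q => by simpa using hh p q) (sub_self _)
  refine hA ⟨⟨fun h z => P.pairing (m z) (fun x => h x - h P.base) + h P.base, fun f g => ?_⟩,
    fun c f => ?_⟩ (insert P.base F) (fun h hh x y => ?_) (fun h hh a ha => ?_) fun h hh => ?_
  · ext z
    simp only [PointedMetric.pairing, Finsupp.sum, Pi.add_apply, add_sub_add_comm, mul_add,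
      sum_add_distrib]
    ring
  · ext z
    simp only [PointedMetric.pairing, Finsupp.sum, Pi.smul_apply, smul_eq_mul, ← mul_sub, mul_add,
      mul_sum, RingHom.id_apply, mul_left_comm c]
  · simp only [LinearMap.coe_mk, AddHom.coe_mk, add_sub_add_right_eq_sub, ← pairing_sub]
    refine (h8 h hh _).trans ?_
    rw [Completion.coe_sub, hm', hm', ← map_sub, ← map_sub, ← Completion.coe_sub]
    exact ((U ∘L T).le_of_opNorm_le h7 _).trans (mul_le_mul_of_nonneg_left
      ((Completion.norm_coe _).trans_le (norm_pt_sub P x y)) (by positivity))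
  · have e : P.pairing (m a) (fun x => h x - h P.base) + h P.base - h a =
        P.pairing (m a - pt P a) fun x => h x - h P.base := by
      rw [pairing_sub, pairing_pt]; ring
    simp only [LinearMap.coe_mk, AddHom.coe_mk, e]
    refine (h8 h hh _).trans ?_
    rw [Completion.coe_sub, hm']
    linarith [norm_sub_le_norm_sub_add_norm_sub (U (T (pt P a))) (T (pt P a)) (pt P a),
      h3 _ ⟨a, ha, rfl⟩, h5 _ (Or.inr ⟨_, ⟨a, ha, rfl⟩, rfl⟩), min_le_right 1 (δ / 2)]
  · ext z
    simp only [LinearMap.coe_mk, AddHom.coe_mk, hh _ (mem_insert_self _ _), sub_zero, add_zero]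
    exact sum_eq_zero fun x hx => mul_eq_zero_of_right _ (hh x (mem_insert_of_mem (hm z hx)))

theorem Bad.retract {X M : Type} {d : X → X → ℝ} {e : M → M → ℝ} {l : ℝ} (h : Bad d l)
    (i : X → M) (r : M → X) (hi : ∀ x y, e (i x) (i y) = d x y) (hr : ∀ p q, d (r p) (r q) ≤ e p q)
    (hri : ∀ x, r (i x) = x) : Bad e l := by
  classical
  obtain ⟨A, δ, δ0, hA⟩ := h
  refine ⟨A.image i, δ, δ0, fun S B h1 h2 h3 => ?_⟩
  have h4 : ∀ h, Lip d 1 h → Lip e 1 (h ∘ r) := fun h hh p q =>
    (hh _ _).trans (mul_le_mul_of_nonneg_left (hr p q) zero_le_one)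
  refine hA (LinearMap.funLeft ℝ ℝ i ∘ₗ S ∘ₗ LinearMap.funLeft ℝ ℝ r) (B.image r)
    (fun h hh x y => hi x y ▸ h1 _ (h4 h hh) _ _) (fun h hh a ha => ?_) fun h hh => ?_
  · have := h2 _ (h4 h hh) _ (mem_image_of_mem i ha)
    rwa [Function.comp_apply, hri] at this
  · exact (congrArg (LinearMap.funLeft ℝ ℝ i)
      (h3 (h ∘ r) fun b hb => hh _ (mem_image_of_mem r hb))).trans (map_zero _)

theorem Bad.unbounded {X : Type} {d : X → X → ℝ} {l : ℝ} (h : Bad d l) (h0 : ∀ x, d x x = 0)
    (hs : ∀ x y, x ≠ y → 1 ≤ d x y) (x₀ : X) : ¬∀ x y, d x y ≤ l := fun hd => by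
  classical
  obtain ⟨A, δ, δ0, hA⟩ := h
  refine hA (LinearMap.funLeft ℝ ℝ fun x => if x ∈ A then x else x₀) (insert x₀ A)
    (fun h hh x y => ?_) (fun h hh a ha => by simp [LinearMap.funLeft_apply, ha, δ0.le])
    fun h hh => funext fun x => hh _ (by dsimp only; split_ifs <;> simp [*])
  by_cases e : x = y
  · simp [e, h0]
  · exact (hh _ _).trans (((one_mul _).trans_le (hd _ _)).trans
      (le_mul_of_one_le_right (h0 x ▸ hd x x) (hs x y e)))

theorem main : ∃ P : PointedMetric, P.IsCountableSeparatedUnboundedNonproper ∧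
    HasAP P.FreeSpace ∧ ¬HasBAP P.FreeSpace := by
  classical
  choose X m h1 h2 h3 using fun l : ℕ => gadget (Nat.le_add_left 1 l)
  have hX : ∀ l, Nonempty (X l) := fun l => by
    by_contra! h
    obtain ⟨A, δ, -, hA⟩ := h3 l
    exact hA 0 ∅ (fun _ _ x => h.elim x) (fun _ _ x => h.elim x) fun _ _ => rfl
  letI : MetricSpace (Σ l, X l) := Metric.Sigma.metricSpace
  let c : ℕ → Σ l, X l := fun l => ⟨l, (hX l).some⟩
  have hs : ∀ x y : Σ l, X l, x ≠ y → 1 ≤ dist x y := by
    rintro ⟨i, x⟩ ⟨j, y⟩ h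
    rcases eq_or_ne i j with rfl | e
    · exact (h2 i x y fun e => h (e ▸ rfl)).trans_eq (Metric.Sigma.dist_same i x y).symm
    · exact Metric.Sigma.one_le_dist_of_ne e x y
  have hb : ∀ l : ℕ, 1 ≤ l → Bad (X := Σ l, X l) dist l := fun l hl => by
    obtain ⟨l, rfl⟩ := Nat.exists_eq_add_of_le' hl
    refine (h3 l).retract (Sigma.mk l) (fun p => if h : p.1 = l then h ▸ p.2 else (hX l).some)
      (Metric.Sigma.dist_same l) ?_ fun x => dif_pos rfl
    rintro ⟨i, x⟩ ⟨j, y⟩
    by_cases e1 : i = l <;> by_cases e2 : j = l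
    · subst e1 e2
      simp
    · subst e1
      refine le_trans ?_ (Metric.Sigma.dist_ne (Ne.symm e2) x y).ge
      simp only [dif_pos, dif_neg e2]
      exact le_add_of_le_of_nonneg (le_add_of_nonneg_right zero_le_one) dist_nonneg
    · subst e2
      refine le_trans ?_ (Metric.Sigma.dist_ne e1 x y).ge
      simp only [dif_pos, dif_neg e1]
      exact le_add_of_nonneg_left (by positivity)
    · simp [e1, e2]
  refine ⟨⟨Σ l, X l, inferInstance, c 0⟩, ⟨inferInstance, hs, fun h => ?_, fun h => ?_⟩,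
    hasAP _ hs, not_hasBAP _ hs hb⟩
  · obtain ⟨D, hD⟩ := Metric.isBounded_iff.1 h
    obtain ⟨l, hl⟩ := exists_nat_ge D
    exact (hb (l + 1) (by omega)).unbounded dist_self hs (c 0) fun x y =>
      (hD trivial trivial).trans (hl.trans (mod_cast l.le_succ))
  · have : DiscreteTopology (Σ l, X l) := discreteTopology_iff_isOpen_singleton.2 fun x =>
      Metric.isOpen_singleton_iff.2 ⟨1, one_pos, fun y hy => by_contra fun e => (hs y x e).not_gt hy⟩
    refine Set.infinite_of_injective_forall_mem (f := c) (fun i j e => congrArg Sigma.fst e)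
      (fun i => ?_) (isCompact_closedBall (c 0) 1).finite_of_discrete
    rcases eq_or_ne i 0 with rfl | e
    · exact Metric.mem_closedBall_self zero_le_one
    · exact (Metric.Sigma.dist_ne e _ _).trans_le (by simp)

end Crest.Agent.R115
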