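import Mathlib

/-!
Row 115: bounded degree graphs of large girth, and counting lemmas.
-/

set_option autoImplicit false

open Finset

namespace Crest.Agent.R115

variable {α : Type}

/-- reachable in at most `r` steps -/
def Near (adj : α → α → Prop) : ℕ → α → α → Prop
  | 0, x, y => x = y
  | r + 1, x, y => Near adj r x y ∨ ∃ z, Near adj r x z ∧ adj z y

variable {adj : α → α → Prop}

theorem Near.mono {r s : ℕ} {x y : α} (h : Near adj r x y) (hs : r ≤ s) : Near adj s x y := by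
  induction hs with
  | refl => exact h
  | step _ ih => exact Or.inl ih

theorem Near.refl (r : ℕ) (x : α) : Near adj r x x := Near.mono (r := 0) rfl r.zero_le

theorem Near.trans {r s : ℕ} {x y z : α} (h : Near adj r x y) (h' : Near adj s y z) :
    Near adj (r + s) x z := by
  induction s generalizing z with
  | zero => exact h' ▸ h
  | succ s ih => exact h'.imp ih fun ⟨w, h1, h2⟩ => ⟨w, ih h1, h2⟩

theorem Near.symm (hs : ∀ x y, adj x y → adj y x) {r : ℕ} {x y : α} (h : Near adj r x y) :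
    Near adj r y x := by
  induction r generalizing y with
  | zero => exact Eq.symm h
  | succ r ih =>
    rcases h with h | ⟨z, h1, h2⟩
    · exact Or.inl (ih h)
    · rw [add_comm]
      exact Near.trans (Or.inr ⟨y, rfl, hs _ _ h2⟩) (ih h1)

theorem Near.of_walk (x : ℕ → α) (a L : ℕ) (h : ∀ i, a ≤ i → i < a + L → adj (x i) (x (i + 1))) :
    Near adj L (x a) (x (a + L)) := by
  induction L with
  | zero => rfl
  | succ L ih =>
    exact Or.inr ⟨_, ih fun i h1 h2 => h i h1 (by omega), h _ (by omega) (by omega)⟩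

theorem Near.exists_adj {r : ℕ} {x y : α} (h : Near adj r x y) (hne : x ≠ y) : ∃ z, adj x z := by
  induction r generalizing y with
  | zero => exact (hne h).elim
  | succ r ih =>
    rcases h with h | ⟨z, h1, h2⟩
    · exact ih h hne
    · by_cases hz : x = z
      exacts [⟨y, hz ▸ h2⟩, ih h1 hz]

/-- bounded out-degree -/
def Bdd (R : α → α → Prop) (D : ℕ) : Prop := ∀ x, ∃ s : Finset α, #s ≤ D ∧ ∀ y, R x y → y ∈ s

theorem Bdd.near {D : ℕ} (h : Bdd adj D) (r : ℕ) : Bdd (Near adj r) ((D + 1) ^ r) := by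
  classical
  choose nb h1 h2 using h
  intro x
  induction r with
  | zero => exact ⟨{x}, by simp, fun y hy => mem_singleton.2 (Eq.symm hy)⟩
  | succ r ih =>
    obtain ⟨s, h3, h4⟩ := ih
    refine ⟨s.biUnion fun z => insert z (nb z), (card_biUnion_le_card_mul _ _ (D + 1) fun z _ =>
      (card_insert_le _ _).trans (by linarith [h1 z])).trans (by rw [pow_succ]; gcongr), ?_⟩
    rintro y (hy | ⟨z, h5, h6⟩)
    · exact mem_biUnion.2 ⟨y, h4 y hy, mem_insert_self _ _⟩
    · exact mem_biUnion.2 ⟨z, h4 z h5, mem_insert_of_mem (h2 z y h6)⟩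

theorem Bdd.walks {D : ℕ} (h : Bdd adj D) (S : Finset α) (l : ℕ) :
    ∃ W : Finset (ℕ → α), #W ≤ #S * D ^ l ∧ ∀ x : ℕ → α, x 0 ∈ S →
      (∀ i < l, adj (x i) (x (i + 1))) → ∃ y ∈ W, ∀ i ≤ l, y i = x i := by
  classical
  choose nb h1 h2 using h
  induction l with
  | zero =>
    exact ⟨S.image fun a _ => a, by simpa using card_image_le, fun x hx _ =>
      ⟨_, mem_image_of_mem _ hx, fun i hi => by rw [Nat.le_zero.1 hi]⟩⟩
  | succ l ih =>
    obtain ⟨W, h3, h4⟩ := ih
    refine ⟨W.biUnion fun y => (nb (y l)).image (Function.update y (l + 1)),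
      (card_biUnion_le_card_mul _ _ D fun y _ => card_image_le.trans (h1 _)).trans
        (by rw [pow_succ, ← mul_assoc]; gcongr), fun x hx hw => ?_⟩
    obtain ⟨y, hy, h5⟩ := h4 x hx fun i hi => hw i (by omega)
    refine ⟨_, mem_biUnion.2 ⟨y, hy, mem_image_of_mem _ (h2 _ (x (l + 1)) (by
      rw [h5 l le_rfl]; exact hw l (by omega)))⟩, fun i hi => ?_⟩
    rcases hi.eq_or_lt with rfl | hi
    · simp
    · rw [Function.update_of_ne hi.ne, h5 i (by omega)]

/-- no short closed non-backtracking walk -/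
def NC (adj : α → α → Prop) (l : ℕ) : Prop :=
  ∀ (x : ℕ → α) (L : ℕ), 1 ≤ L → L ≤ l → (∀ i < L, adj (x i) (x (i + 1))) →
    (∀ i, i + 2 ≤ L → x (i + 2) ≠ x i) → x L ≠ x 0

theorem NC.shift {l : ℕ} (h : NC adj l) (x : ℕ → α) {a b : ℕ} (hab : a < b) (hl : b ≤ a + l)
    (h1 : ∀ i, a ≤ i → i < b → adj (x i) (x (i + 1)))
    (h2 : ∀ i, i + 2 ≤ b → x (i + 2) ≠ x i) : x b ≠ x a := by
  have := h (fun t => x (a + t)) (b - a) (by omega) (by omega)
    (fun i hi => h1 (a + i) (by omega) (by omega)) fun i hi => h2 (a + i) (by omega)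
  rwa [Nat.add_sub_cancel' hab.le] at this

theorem NC.add {l : ℕ} (h : NC adj l) (hs : ∀ x y, adj x y → adj y x) {p q : α}
    (hn : ¬Near adj l p q) : NC (fun v w => adj v w ∨ (v = p ∧ w = q) ∨ (v = q ∧ w = p)) l := by
  classical
  intro x L h1 h2 h3 h4 h5
  have key : ∀ i < L, ¬adj (x i) (x (i + 1)) → ∀ r ≤ l, ¬Near adj r (x (i + 1)) (x i) := by
    intro i hi hc r hr hN
    rcases (h3 i hi).resolve_left hc with ⟨e1, e2⟩ | ⟨e1, e2⟩ <;> rw [e1, e2] at hN
    exacts [hn ((hN.symm hs).mono hr), hn (hN.mono hr)]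
  by_cases ha : ∃ i, i < L ∧ ¬adj (x i) (x (i + 1))
  swap
  · exact h x L h1 h2 (fun i hi => by_contra fun hc => ha ⟨i, hi, hc⟩) h4 h5
  obtain ⟨i, ⟨a1, a2⟩, a3⟩ := Nat.findX ha
  by_cases hb : ∃ j, i < j ∧ j < L ∧ ¬adj (x j) (x (j + 1))
  · obtain ⟨j, ⟨b1, b2, b3⟩, b4⟩ := Nat.findX hb
    have hw : ∀ t, i + 1 ≤ t → t < j → adj (x t) (x (t + 1)) := fun t h6 h7 =>
      by_contra fun hc => b4 t h7 ⟨h6, by omega, hc⟩
    have hN := Near.of_walk x (i + 1) (j - (i + 1)) fun t h6 h7 => hw t h6 (by omega)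
    rw [Nat.add_sub_cancel' b1] at hN
    have e : x j = x i ∨ (x j = x (i + 1) ∧ x (j + 1) = x i) := by
      rcases (h3 i a1).resolve_left a2 with ⟨e1, e2⟩ | ⟨e1, e2⟩ <;>
        rcases (h3 j b2).resolve_left b3 with ⟨e3, e4⟩ | ⟨e3, e4⟩ <;> simp [e1, e2, e3, e4]
    rcases e with e | ⟨e1, e2⟩
    · exact key i a1 a2 _ (by omega) (e ▸ hN)
    · rcases (show i + 1 ≤ j from b1).eq_or_lt with rfl | h6
      · exact h4 i (by omega) e2
      · exact h.shift x h6 (by omega) hw (fun t ht => h4 t (by omega)) e1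
  · have n1 := Near.of_walk x (i + 1) (L - (i + 1)) fun t h6 h7 =>
      by_contra fun hc => hb ⟨t, h6, by omega, hc⟩
    have n2 := Near.of_walk x 0 i fun t _ h7 => by_contra fun hc => a3 t (by omega) ⟨by omega, hc⟩
    rw [Nat.add_sub_cancel' a1, h5] at n1
    rw [zero_add] at n2
    exact key i a1 a2 _ (by omega) (n1.trans n2)

open Classical in
/-- degree inside `range N` -/
noncomputable def deg (N : ℕ) (adj : ℕ → ℕ → Prop) (v : ℕ) : ℕ := #((range N).filter (adj v))

theorem bdd_of_deg {N : ℕ} {adj : ℕ → ℕ → Prop} (h1 : ∀ v w, adj v w → w < N)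
    (h2 : ∀ v, deg N adj v ≤ 5) : Bdd adj 5 := fun v => by
  classical
  exact ⟨_, h2 v, fun w hw => mem_filter.2 ⟨mem_range.2 (h1 v w hw), hw⟩⟩

theorem exists_graph (N : ℕ) {l : ℕ} (hl : 1 ≤ l) : ∃ adj : ℕ → ℕ → Prop, (∀ v w, adj v w → adj w v) ∧
    (∀ v w, adj v w → w < N) ∧ (∀ v, deg N adj v ≤ 5) ∧ NC adj l ∧
    #((range N).filter fun v => deg N adj v < 5) ≤ 6 ^ l := by
  classical
  obtain ⟨E, hE, hmax⟩ := exists_max_image ((range N ×ˢ range N).powerset.filter fun E =>
    (∀ v w, (v, w) ∈ E → (w, v) ∈ E) ∧ (∀ v, deg N (fun v w => (v, w) ∈ E) v ≤ 5) ∧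
      NC (fun v w => (v, w) ∈ E) l) card ⟨∅, by
        simp only [mem_filter, deg]
        exact ⟨by simp, by simp, by simp, fun x L h1 _ h => by simpa using h 0 h1⟩⟩
  obtain ⟨h0, h1, h2, h3⟩ := mem_filter.1 hE
  have h4 : ∀ v w, (v, w) ∈ E → w < N := fun v w h =>
    mem_range.1 (mem_product.1 (mem_powerset.1 h0 h)).2
  refine ⟨fun v w => (v, w) ∈ E, h1, h4, h2, h3, ?_⟩
  rcases ((range N).filter fun v => deg N (fun v w => (v, w) ∈ E) v < 5).eq_empty_or_nonempty
    with h | ⟨p, hp⟩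
  · rw [h]; simp
  obtain ⟨s, h5, h6⟩ := (bdd_of_deg h4 h2).near l p
  refine (card_le_card fun q hq => h6 q (by_contra fun hn => ?_)).trans h5
  obtain ⟨p1, p2⟩ := mem_filter.1 hp
  obtain ⟨q1, q2⟩ := mem_filter.1 hq
  have e : (fun v w => (v, w) ∈ insert (p, q) (insert (q, p) E)) =
      fun v w => (v, w) ∈ E ∨ (v = p ∧ w = q) ∨ (v = q ∧ w = p) := by
    ext v w
    simp only [mem_insert, Prod.mk.injEq]
    tauto
  have hpq : p ≠ q := fun h => hn (h ▸ Near.refl _ _)
  have hE' : (p, q) ∉ E := fun h => hn (Near.mono (r := 1) (Or.inr ⟨p, rfl, h⟩) hl)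
  have hd : ∀ v a, deg N (fun v w => (v, w) ∈ E) v < 5 →
      #(insert a ((range N).filter fun w => (v, w) ∈ E)) ≤ 5 := fun v a h =>
    (card_insert_le _ _).trans (by
      refine Nat.succ_le_of_lt (lt_of_eq_of_lt ?_ h)
      unfold deg
      congr 1
      ext
      simp)
  have := hmax (insert (p, q) (insert (q, p) E)) (mem_filter.2 ⟨?_, ?_, fun v => ?_, ?_⟩)
  · rw [card_insert_of_notMem (by simp [hE', hpq])] at this
    linarith [card_le_card (subset_insert (q, p) E)]
  · exact mem_powerset.2 (insert_subset (mem_product.2 ⟨p1, q1⟩)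
      (insert_subset (mem_product.2 ⟨q1, p1⟩) (mem_powerset.1 h0)))
  · intro v w
    simp only [mem_insert, Prod.mk.injEq]
    have := h1 v w
    tauto
  · rw [e]
    by_cases hv : v = p
    · refine (card_le_card fun w hw => ?_).trans (hd v q (hv ▸ p2))
      simp only [mem_insert, mem_filter] at hw ⊢
      have : v ≠ q := hv ▸ hpq
      tauto
    by_cases hv' : v = q
    · refine (card_le_card fun w hw => ?_).trans (hd v p (hv' ▸ q2))
      simp only [mem_insert, mem_filter] at hw ⊢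
      tauto
    · refine (card_le_card fun w hw => ?_).trans (h2 v)
      simp only [mem_filter] at hw ⊢
      tauto
  · rw [e]; exact h3.add h1 hn

theorem exists_colouring {R : ℕ → ℕ → Prop} {D : ℕ} (h : Bdd R D) (hs : ∀ v w, R v w → R w v)
    (N : ℕ) : ∃ c : ℕ → Fin (D + 1), ∀ v < N, ∀ w < N, v ≠ w → R v w → c v ≠ c w := by
  classical
  induction N with
  | zero => exact ⟨0, fun v hv => by omega⟩
  | succ N ih =>
    obtain ⟨c, hc⟩ := ih
    obtain ⟨s, h1, h2⟩ := h N
    obtain ⟨a, -, ha⟩ := exists_mem_notMem_of_card_lt_card (s := s.image c) (t := univ)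
      (card_image_le.trans_lt (by simp; omega))
    have key : ∀ w < N, R N w → a ≠ c w := fun w _ h3 h4 => ha (h4 ▸ mem_image_of_mem c (h2 w h3))
    refine ⟨Function.update c N a, fun v hv w hw hne hR => ?_⟩
    rcases (Nat.lt_succ_iff.1 hv).eq_or_lt with rfl | h3 <;>
      rcases (Nat.lt_succ_iff.1 hw).eq_or_lt with rfl | h4
    · exact (hne rfl).elim
    · rw [Function.update_self, Function.update_of_ne h4.ne]; exact key w h4 hR
    · rw [Function.update_self, Function.update_of_ne h3.ne]; exact (key v h3 (hs _ _ hR)).symm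
    · rw [Function.update_of_ne h3.ne, Function.update_of_ne h4.ne]; exact hc v h3 w h4 hne hR

theorem exists_avoid {V ι M : Type} [Fintype V] [Fintype ι] [Fintype M] [Nonempty M]
    (B : Finset ((ι → V) × (ι → M))) (hB : ∀ p ∈ B, Function.Injective p.1)
    (h : #B < Fintype.card M ^ Fintype.card ι) : ∃ r : V → M, ∀ p ∈ B, ∃ i, r (p.1 i) ≠ p.2 i := by
  classical
  by_contra! hc
  choose! f h1 h2 using hc
  have key := Fintype.card_le_of_injective
    (fun a : (V → M) × (ι → M) =>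
      ((⟨f a.1, h1 a.1⟩, Function.extend (f a.1).1 a.2 a.1) : B × (V → M)))
    (by
      rintro ⟨r, u⟩ ⟨r', u'⟩ e
      obtain ⟨e1, e2⟩ : f r = f r' ∧ _ := by simpa only [Prod.mk.injEq, Subtype.mk.injEq] using e
      have hi := hB _ (h1 r)
      rw [← e1] at e2
      refine Prod.ext (funext fun v => ?_) (funext fun i => ?_)
      · by_cases hv : ∃ i, (f r).1 i = v
        · obtain ⟨i, rfl⟩ := hv
          exact (h2 r i).trans (by rw [e1]; exact (h2 r' i).symm)
        · simpa only [Function.extend_apply' _ _ _ hv] using congrFun e2 v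
      · simpa only [hi.extend_apply] using congrFun e2 ((f r).1 i))
  simp only [Fintype.card_prod, Fintype.card_coe, Fintype.card_fun] at key
  have : 0 < Fintype.card M ^ Fintype.card V := pow_pos Fintype.card_pos _
  nlinarith

end Crest.Agent.R115
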