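import Crest.Agent.R115.Avg

/-!
Row 115: traces of an operator on functions on `Y × ℤ^I`, and their conservation.
-/

set_option autoImplicit false

open Finset

namespace Crest.Agent.R115

/-- `μ`-Lipschitz functions for a distance function `d` -/
def Lip {X : Type} (d : X → X → ℝ) (μ : ℝ) (h : X → ℝ) : Prop := ∀ p q, |h p - h q| ≤ μ * d p q

theorem abs_avg_fin {J : Type} [Fintype J] [Nonempty J] {a : J → ℝ} {μ : ℝ}
    (h : ∀ j, |a j| ≤ μ) : |(∑ j, a j) / Fintype.card J| ≤ μ := by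
  rw [abs_div, Nat.abs_cast, div_le_iff₀' (mod_cast Fintype.card_pos), ← nsmul_eq_mul]
  exact (abs_sum_le_sum_abs _ _).trans (sum_le_card_nsmul _ _ _ fun j _ => h j)

variable {Y I : Type} [Fintype I] [DecidableEq I]

/-- the function with coefficients `γ` -/
def lin (γ : Y → I → ℝ) (p : Y × (I → ℤ)) : ℝ := ∑ i, γ p.1 i * p.2 i

/-- weighted coordinate functions -/
def co (i : I) : (Y → ℝ) →ₗ[ℝ] (Y × (I → ℤ) → ℝ) where
  toFun ψ p := ψ p.1 * p.2 i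
  map_add' _ _ := by ext; simp [add_mul]
  map_smul' _ _ := by ext; simp [mul_assoc]

/-- averaged increment of `S h` over the fibre of `x` -/
noncomputable def DS (R : I → ℕ) (S : (Y × (I → ℤ) → ℝ) →ₗ[ℝ] (Y × (I → ℤ) → ℝ)) (x : Y)
    (v : I → ℤ) : (Y × (I → ℤ) → ℝ) →ₗ[ℝ] ℝ :=
  D R v ∘ₗ LinearMap.funLeft ℝ ℝ (Prod.mk x) ∘ₗ S

/-- the normalised trace -/
noncomputable def tr (R : I → ℕ) (S : (Y × (I → ℤ) → ℝ) →ₗ[ℝ] (Y × (I → ℤ) → ℝ)) {J : Type}
    [Fintype J] (ι : J → I) (x : Y) : (Y → ℝ) →ₗ[ℝ] ℝ :=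
  (Fintype.card J : ℝ)⁻¹ • ∑ j, DS R S x (Pi.single (ι j) 1) ∘ₗ co (ι j)

theorem tr_apply (R : I → ℕ) (S : (Y × (I → ℤ) → ℝ) →ₗ[ℝ] (Y × (I → ℤ) → ℝ)) {J : Type}
    [Fintype J] (ι : J → I) (x : Y) (ψ : Y → ℝ) :
    tr R S ι x ψ = (∑ j, DS R S x (Pi.single (ι j) 1) (co (ι j) ψ)) / Fintype.card J := by
  simp [tr, LinearMap.sum_apply, div_eq_inv_mul]

/-- `d` is controlled by the family `Γ` -/
structure Ctx (Γ : Set (Y → I → ℝ)) (d : Y × (I → ℤ) → Y × (I → ℤ) → ℝ) : Prop where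
  bd : ∀ γ ∈ Γ, ∀ y i, |γ y i| ≤ 1
  lip : ∀ γ ∈ Γ, Lip d 1 (lin γ)
  le : ∀ p q β, 1 ≤ β → (∀ γ ∈ Γ, |lin γ p - lin γ q| ≤ β) → d p q ≤ β

theorem lin_ue (γ : Y → I → ℝ) (x : Y) (z : I → ℤ) {ι : Type} [Fintype ι] (k : ι → I) {c : ι → ℝ}
    (hc : ∀ i, Sg (c i)) :
    lin γ (x, z + ∑ i, ue (k i) (c i)) - lin γ (x, z) = ∑ i, γ x (k i) * c i := by
  simp only [lin, Pi.add_apply, Int.cast_add, mul_add, sum_add_distrib, add_sub_cancel_left,
    Finset.sum_apply, Int.cast_sum, mul_sum]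
  rw [sum_comm]
  refine sum_congr rfl fun i _ => ?_
  rw [sum_eq_single (k i) (fun j _ e => by simp [ue, e]) (by simp)]
  rcases hc i with e | e <;> simp [e, ue_one, ue_neg]

variable {Γ : Set (Y → I → ℝ)} {d : Y × (I → ℤ) → Y × (I → ℤ) → ℝ} (C : Ctx Γ d) {l : ℝ}
  (hl : 0 ≤ l) {S : (Y × (I → ℤ) → ℝ) →ₗ[ℝ] (Y × (I → ℤ) → ℝ)}
  (hS : ∀ h, Lip d 1 h → Lip d l (S h)) {R : I → ℕ}

include C hl hS in
theorem Ctx.unit {h : Y × (I → ℤ) → ℝ} (hh : Lip d 1 h) (x : Y) (z : I → ℤ) (i : I) :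
    |S h (x, z + Pi.single i 1) - S h (x, z)| ≤ l :=
  (hS h hh _ _).trans (mul_le_of_le_one_right hl (C.le _ _ _ le_rfl fun γ hγ => by
    simpa [ue_one] using (congrArg abs (lin_ue γ x z (fun _ : Unit => i) (c := 1)
      fun _ => Or.inl rfl)).trans_le (by simpa using C.bd γ hγ x i)))

include C hl hS in
theorem Ctx.tr_le (hR : ∀ i, 0 < R i) {J : Type} [Fintype J] [Nonempty J] (ι : J → I) {ψ : Y → ℝ}
    (hψ : ∀ j, Lip d 1 (co (ι j) ψ)) (x : Y) : |tr R S ι x ψ| ≤ l := by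
  rw [tr_apply]
  exact abs_avg_fin fun j => abs_avg_le hR fun z _ => C.unit hl hS (hψ j) x z _

include C hl hS in
theorem Ctx.tr_sub (hR : ∀ i, 0 < R i) {J : Type} [Fintype J] [Nonempty J] (ι : J → I)
    {ψ : Y → ℝ} (hψ : ∀ j, Lip d 1 (co (ι j) ψ)) {x y : Y} {β : ℝ} (hβ : 1 ≤ β) {w : I → ℝ}
    (h : ∀ γ ∈ Γ, ∀ i, |γ x i - γ y i| ≤ w i) (hw : ∑ i, w i * R i ≤ β) {r : ℕ}
    (hr : ∀ j, R (ι j) = r) : |tr R S ι x ψ - tr R S ι y ψ| ≤ 2 * (l * β) / r := by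
  rw [tr_apply, tr_apply, ← sub_div, ← sum_sub_distrib]
  refine abs_avg_fin fun j => ?_
  have := D_key hR (G := fun z => S (co (ι j) ψ) (x, z) - S (co (ι j) ψ) (y, z)) (μ := l * β)
    (fun z hz => (hS _ (hψ j) _ _).trans (mul_le_mul_of_nonneg_left (C.le _ _ _ hβ fun γ hγ => by
      simp only [lin, ← sum_sub_distrib, ← sub_mul]
      refine (abs_sum_le_sum_abs _ _).trans ((sum_le_sum fun i _ => ?_).trans hw)
      rw [abs_mul]
      exact mul_le_mul (h γ hγ i) (by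
        rw [abs_of_nonneg (mod_cast (hz i).1)]; exact mod_cast (hz i).2) (abs_nonneg _)
        ((abs_nonneg _).trans (h γ hγ i))) hl)) (ι j)
  rw [hr] at this
  exact (congrArg abs ((D R _).map_sub _ _).symm).trans_le this

theorem tr_fix (hR : ∀ i, 0 < R i) {J : Type} [Fintype J] [Nonempty J] (ι : J → I)
    {ψ : Y → ℝ} {x : Y} {δ : ℝ}
    (h : ∀ j z, InBox R z → |S (co (ι j) ψ) (x, z) - co (ι j) ψ (x, z)| ≤ δ) :
    |tr R S ι x ψ - ψ x| ≤ 2 * δ := by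
  have e : ψ x = (∑ _j : J, ψ x) / Fintype.card J := by
    rw [sum_const, card_univ, nsmul_eq_mul, mul_div_cancel_left₀ _ (by positivity)]
  rw [tr_apply, e, ← sub_div, ← sum_sub_distrib]
  refine abs_avg_fin fun j => ?_
  have h1 := D_key hR (h j) (ι j)
  have h2 : D R (Pi.single (ι j) 1) (fun z => co (ι j) ψ (x, z)) = ψ x := by
    rw [D_apply, ← avg_const hR (ψ x)]
    congr 1
    ext z
    simp [co, mul_add]
  have h3 : 0 ≤ δ := (abs_nonneg _).trans (h j 0 fun i => by simp)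
  rw [← h2]
  exact (congrArg abs ((D R _).map_sub _ _).symm).trans_le
    (h1.trans (div_le_self (by positivity) (mod_cast hR _)))

theorem lip_avg {X T : Type} [Fintype T] [Nonempty T] {d : X → X → ℝ} {g : T → X → ℝ}
    (hg : ∀ τ, Lip d 1 (g τ)) {c : T → ℝ} (hc : ∀ τ, Sg (c τ)) {f : X → ℝ}
    (h : ∑ τ, c τ • g τ = (Fintype.card T : ℝ) • f) : Lip d 1 f := fun p q => by
  have e : f p - f q = (∑ τ, c τ * (g τ p - g τ q)) / Fintype.card T := by
    have := fun p => congrFun h p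
    simp only [Finset.sum_apply, Pi.smul_apply, smul_eq_mul] at this
    simp only [mul_sub, sum_sub_distrib, this]
    rw [← mul_sub, mul_div_cancel_left₀ _ (by positivity)]
  rw [e]
  exact abs_avg_fin fun τ => by rw [abs_mul, (hc τ).abs, one_mul]; exact hg τ p q

variable {r : ℕ} (hr : 0 < r) (hR : ∀ i, r ≤ R i)

include C hl hS hr hR in
theorem Ctx.conserve {T ι : Type} [Fintype T] [Nonempty T] [Fintype ι]
    {g : T → Y × (I → ℤ) → ℝ} (hg : ∀ τ, Lip d 1 (g τ)) {c : T → ι → ℝ} (hc : ∀ τ i, Sg (c τ i))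
    {f : ι → Y × (I → ℤ) → ℝ} (h : ∀ i, ∑ τ, c τ i • g τ = (Fintype.card T : ℝ) • f i) (k : ι → I)
    {x : Y} {β : ℝ} (hβ : 1 ≤ β) (hx : ∀ τ, ∀ γ ∈ Γ, |∑ i, γ x (k i) * c τ i| ≤ β) :
    |∑ i, DS R S x (Pi.single (k i) 1) (f i)| ≤ l * β +
      (Fintype.card ι * Fintype.card ι * (2 * l / r) + Fintype.card ι * (2 * l / r)) := by
  have e : ∑ i, DS R S x (Pi.single (k i) 1) (f i) =
      (∑ τ, ∑ i, c τ i * DS R S x (Pi.single (k i) 1) (g τ)) / Fintype.card T := by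
    rw [sum_comm, eq_div_iff (by positivity), sum_mul]
    refine sum_congr rfl fun i _ => ?_
    simpa only [map_sum, map_smul, smul_eq_mul, mul_comm] using
      congrArg (DS R S x (Pi.single (k i) 1)) (h i).symm
  rw [e]
  refine abs_avg_fin fun τ => ?_
  have h1 := D_lin hr hR univ k (hc τ) (G := fun z => S (g τ) (x, z))
    (C.unit hl hS (hg τ) x) hl
  have h2 : |D R (∑ i, ue (k i) (c τ i)) fun z => S (g τ) (x, z)| ≤ l * β :=
    abs_avg_le (fun i => hr.trans_le (hR i)) fun z _ => (hS _ (hg τ) _ _).trans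
      (mul_le_mul_of_nonneg_left (C.le _ _ _ hβ fun γ hγ => by
        rw [lin_ue γ x z k (hc τ)]; exact hx τ γ hγ) hl)
  rw [card_univ, abs_sub_comm] at h1
  have h3 := (abs_add_le _ _).trans ((add_le_add h1 h2).trans_eq (add_comm _ _))
  rw [sub_add_cancel] at h3
  exact h3

section level

variable {J K : Type} [Fintype J] [DecidableEq J] [Fintype K] [DecidableEq K] [Nonempty J]
  [Nonempty K] {α : ℝ} (P : Lev J K α) {ι : J → I} {ι' : J × K → I} {ψ ψ' : Y → ℝ}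
  {γ : J × K × Bool → Y → I → ℝ}
  (hg : ∀ τ p, lin (γ τ) p = ψ p.1 * ∑ j, P.p τ j * p.2 (ι j) + ψ' p.1 * ∑ q, P.p' τ q * p.2 (ι' q))

include hg

omit [DecidableEq I] [Nonempty J] [Nonempty K] in
theorem Lev.up (j : J) :
    ∑ τ, P.p τ j • lin (γ τ) = (Fintype.card (J × K × Bool) : ℝ) • co (ι j) ψ := by
  ext p
  have : ∀ τ, P.p τ j * lin (γ τ) p = ∑ i, P.p τ j * P.p τ i * (ψ p.1 * p.2 (ι i)) +
      ∑ q, P.p τ j * P.p' τ q * (ψ' p.1 * p.2 (ι' q)) := fun τ => by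
    simp only [hg, mul_add, mul_sum]
    congr 1 <;> exact sum_congr rfl fun _ _ => by ring
  simp only [Finset.sum_apply, Pi.smul_apply, smul_eq_mul, this, sum_add_distrib]
  rw [sum_comm, sum_comm (f := fun τ q => P.p τ j * P.p' τ q * _)]
  simp [← sum_mul, P.o1, P.o2, co]

omit [DecidableEq I] [Nonempty J] [Nonempty K] in
theorem Lev.low (j : J × K) :
    ∑ τ, P.p' τ j • lin (γ τ) = (Fintype.card (J × K × Bool) : ℝ) • co (ι' j) ψ' := by
  ext p
  have : ∀ τ, P.p' τ j * lin (γ τ) p = ∑ i, P.p τ i * P.p' τ j * (ψ p.1 * p.2 (ι i)) +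
      ∑ q, P.p' τ j * P.p' τ q * (ψ' p.1 * p.2 (ι' q)) := fun τ => by
    simp only [hg, mul_add, mul_sum]
    congr 1 <;> exact sum_congr rfl fun _ _ => by ring
  simp only [Finset.sum_apply, Pi.smul_apply, smul_eq_mul, this, sum_add_distrib]
  rw [sum_comm, sum_comm (f := fun τ q => P.p' τ j * P.p' τ q * _)]
  simp [← sum_mul, P.o3, P.o2, co]

include C hl hS hr hR in
theorem Ctx.level (hγ : ∀ τ, γ τ ∈ Γ) (hα : 1 ≤ 2 * α * Fintype.card (J × K)) {x : Y}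
    (hx : ∀ τ, ∀ γ' ∈ Γ, |Fintype.card K * ∑ j, γ' x (ι j) * P.p τ j -
      ∑ q, γ' x (ι' q) * P.p' τ q| ≤ 2 * α * Fintype.card (J × K)) :
    |tr R S ι x ψ - tr R S ι' x ψ'| ≤
      l * (2 * α) + (4 * Fintype.card (J × K) + 2) * (2 * l / r) := by
  have h1 := C.conserve hl hS hr hR (ι := (J × K) ⊕ (J × K)) (fun τ => C.lip _ (hγ τ))
    (c := fun τ => Sum.elim (fun q => P.p τ q.1) fun q => -P.p' τ q) (by
      rintro τ (q | q)
      exacts [P.s _ _, (P.s' _ _).neg])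
    (f := Sum.elim (fun q => co (ι q.1) ψ) fun q => -co (ι' q) ψ') (by
      rintro (q | q)
      · exact P.up hg _
      · simp only [Sum.elim_inr, neg_smul, sum_neg_distrib, smul_neg, P.low hg])
    (Sum.elim (fun q => ι q.1) ι') hα (x := x) fun τ γ' h => by
      simpa [Fintype.sum_prod_type (γ := ℝ) fun q : J × K => γ' x (ι q.1) * P.p τ q.1,
        ← mul_sum, sub_eq_add_neg] using hx τ γ' h
  have h0 : (0 : ℝ) < Fintype.card J := by positivity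
  have h0' : (0 : ℝ) < Fintype.card K := by positivity
  simp only [Fintype.sum_sum_type, Sum.elim_inl, Sum.elim_inr, map_neg, sum_neg_distrib,
    Fintype.card_sum, Fintype.sum_prod_type (γ := ℝ)
      fun q : J × K => DS R S x (Pi.single (ι q.1) 1) (co (ι q.1) ψ), sum_const, card_univ,
      nsmul_eq_mul, ← mul_sum] at h1
  rw [tr_apply, tr_apply, ← mul_div_mul_left _ _ h0'.ne', Fintype.card_prod, Nat.cast_mul,
    mul_comm (Fintype.card K : ℝ) (Fintype.card J), ← sub_div, abs_div,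
    abs_of_pos (mul_pos h0 h0'), div_le_iff₀ (mul_pos h0 h0'), sub_eq_add_neg]
  refine h1.trans_eq ?_
  rw [Fintype.card_prod]
  push_cast
  ring

end level

end Crest.Agent.R115
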