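import Mathlib

/-!
Row 115: Hadamard matrices, random signs and the Enflo–Davie type sign systems.
-/

set_option autoImplicit false

open Finset

namespace Crest.Agent.R115

/-- a sign -/
def Sg (x : ℝ) : Prop := x = 1 ∨ x = -1

theorem Sg.mul {x y : ℝ} (hx : Sg x) (hy : Sg y) : Sg (x * y) := by
  rcases hx with rfl | rfl <;> rcases hy with rfl | rfl <;> simp [Sg]

theorem Sg.neg {x : ℝ} (hx : Sg x) : Sg (-x) := by
  rcases hx with rfl | rfl <;> simp [Sg]

theorem Sg.sq {x : ℝ} (hx : Sg x) : x * x = 1 := by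
  rcases hx with rfl | rfl <;> simp

theorem Sg.abs {x : ℝ} (hx : Sg x) : |x| = 1 := by
  rcases hx with rfl | rfl <;> simp

/-- the sign of a Boolean -/
def sg (b : Bool) : ℝ := if b then -1 else 1

theorem sg_sg (b : Bool) : Sg (sg b) := by cases b <;> simp [Sg, sg]

/-- `J` carries a Hadamard matrix -/
def Had (J : Type) [Fintype J] [DecidableEq J] : Prop :=
  ∃ H : J → J → ℝ, (∀ t i, Sg (H t i)) ∧
    ∀ i j, ∑ t, H t i * H t j = if i = j then (Fintype.card J : ℝ) else 0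

theorem had_unit : Had Unit := ⟨fun _ _ => 1, fun _ _ => Or.inl rfl, by simp⟩

theorem Had.prod {J K : Type} [Fintype J] [DecidableEq J] [Fintype K] [DecidableEq K]
    (hJ : Had J) (hK : Had K) : Had (J × K) := by
  obtain ⟨H, h1, h2⟩ := hJ
  obtain ⟨G, h3, h4⟩ := hK
  refine ⟨fun t i => H t.1 i.1 * G t.2 i.2, fun t i => (h1 _ _).mul (h3 _ _), fun i j => ?_⟩
  have : ∑ t : J × K, H t.1 i.1 * G t.2 i.2 * (H t.1 j.1 * G t.2 j.2) =
      (∑ t, H t i.1 * H t j.1) * ∑ t, G t i.2 * G t j.2 := by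
    rw [Fintype.sum_prod_type, sum_mul_sum]
    exact sum_congr rfl fun _ _ => sum_congr rfl fun _ _ => by ring
  rw [this, h2, h4]
  by_cases e1 : i.1 = j.1 <;> by_cases e2 : i.2 = j.2 <;> simp [Prod.ext_iff, e1, e2]

theorem had_pi (m : ℕ) : Had (Fin m → Bool) := by
  refine ⟨fun t i => ∏ l, sg (t l && i l), fun t i =>
    prod_induction _ Sg (fun _ _ => Sg.mul) (Or.inl rfl) fun _ _ => sg_sg _, fun i j => ?_⟩
  have h : ∀ a b : Bool, ∑ c : Bool, sg (c && a) * sg (c && b) = if a = b then 2 else 0 := by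
    intro a b
    cases a <;> cases b <;> norm_num [sg]
  simp only [← prod_mul_distrib]
  rw [← Fintype.piFinset_univ, ← prod_univ_sum (fun _ => univ)
    fun l c => sg (c && i l) * sg (c && j l)]
  simp only [h]
  split_ifs with e
  · simp [e]
  · obtain ⟨l, hl⟩ := Function.ne_iff.1 e
    exact prod_eq_zero (mem_univ l) (if_neg hl)

theorem exists_signs {J Q : Type} [Fintype J] [Fintype Q] (φ : Q → J → ℝ)
    (hφ : ∀ q j, Sg (φ q j)) {α : ℝ} (hα : 0 ≤ α)
    (h : 2 * (Fintype.card Q : ℝ) < Real.exp (α ^ 2 * Fintype.card J / 2)) :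
    ∃ σ : J → ℝ, (∀ j, Sg (σ j)) ∧ ∀ q, |∑ j, σ j * φ q j| ≤ α * Fintype.card J := by
  classical
  by_contra! hc
  have h1 : ∀ f : J → ℝ, (∀ j, Sg (f j)) → ∑ b : J → Bool, Real.exp (α * ∑ j, sg (b j) * f j) ≤
      2 ^ Fintype.card J * Real.exp (α ^ 2 * Fintype.card J / 2) := fun f hf => by
    simp only [mul_sum, Real.exp_sum]
    rw [← Fintype.piFinset_univ, ← prod_univ_sum (fun _ => univ)
      fun j c => Real.exp (α * (sg c * f j))]
    refine (prod_le_prod (g := fun _ => 2 * Real.exp (α ^ 2 / 2)) (fun _ _ => by positivity)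
      fun j _ => ?_).trans_eq ?_
    · have := Real.cosh_le_exp_half_sq α
      rw [Real.cosh_eq] at this
      rcases hf j with e | e <;> simp [e, sg] <;> linarith
    · rw [prod_const, card_univ, mul_pow, ← Real.exp_nat_mul]
      congr 2; ring
  have h2 : ∀ b : J → Bool, Real.exp (α ^ 2 * Fintype.card J) ≤
      ∑ q, (Real.exp (α * ∑ j, sg (b j) * φ q j) + Real.exp (α * ∑ j, sg (b j) * -φ q j)) := by
    intro b
    obtain ⟨q, hq⟩ := hc (fun j => sg (b j)) fun j => sg_sg _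
    refine le_trans ?_ (single_le_sum (fun _ _ => by positivity) (mem_univ q))
    simp only [mul_neg, sum_neg_distrib]
    rcases lt_abs.1 hq with e | e
    · exact le_add_of_le_of_nonneg (Real.exp_le_exp.2 (by nlinarith)) (by positivity)
    · exact le_add_of_nonneg_of_le (by positivity) (Real.exp_le_exp.2 (by nlinarith))
  have h3 := sum_le_sum fun b (_ : b ∈ univ) => h2 b
  rw [sum_comm] at h3
  have h4 := h3.trans (sum_le_sum fun q _ => sum_add_distrib.trans_le
    (add_le_add (h1 _ (hφ q)) (h1 _ fun j => (hφ q j).neg)))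
  simp only [sum_const, card_univ, Fintype.card_fun, Fintype.card_bool, nsmul_eq_mul] at h4
  have h5 : Real.exp (α ^ 2 * Fintype.card J) =
      Real.exp (α ^ 2 * Fintype.card J / 2) * Real.exp (α ^ 2 * Fintype.card J / 2) := by
    rw [← Real.exp_add, add_halves]
  have h6 : (0 : ℝ) < 2 ^ Fintype.card J * Real.exp (α ^ 2 * Fintype.card J / 2) := by positivity
  rw [h5] at h4
  push_cast at h4
  nlinarith

theorem exists_family {J Q M : Type} [Fintype J] [Fintype Q] [Fintype M] (φ : M → J → ℝ)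
    (hφ : ∀ q j, Sg (φ q j)) {α : ℝ} (hα : 0 ≤ α)
    (h : 2 * ((1 + Fintype.card Q : ℝ) * Fintype.card M) < Real.exp (α ^ 2 * Fintype.card J / 2)) :
    ∃ σ : Q → J → ℝ, (∀ q j, Sg (σ q j)) ∧ (∀ q m, |∑ j, σ q j * φ m j| ≤ α * Fintype.card J) ∧
      ∀ q q', q ≠ q' → ∀ m, |∑ j, σ q j * (σ q' j * φ m j)| ≤ α * Fintype.card J := by
  classical
  suffices H : ∀ s : Finset Q, ∃ σ : Q → J → ℝ, (∀ q j, Sg (σ q j)) ∧
      (∀ q ∈ s, ∀ m, |∑ j, σ q j * φ m j| ≤ α * Fintype.card J) ∧ ∀ q ∈ s, ∀ q' ∈ s,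
      q ≠ q' → ∀ m, |∑ j, σ q j * (σ q' j * φ m j)| ≤ α * Fintype.card J by
    obtain ⟨σ, h1, h2, h3⟩ := H univ
    exact ⟨σ, h1, fun q => h2 q (mem_univ _), fun q q' => h3 q (mem_univ _) q' (mem_univ _)⟩
  intro s
  induction s using Finset.induction with
  | empty => exact ⟨fun _ _ => 1, fun _ _ => Or.inl rfl, by simp, by simp⟩
  | insert a s ha ih =>
    obtain ⟨σ, h1, h2, h3⟩ := ih
    obtain ⟨τ, h4, h5⟩ := exists_signs (Q := M ⊕ Q × M)
      (Sum.elim φ fun q j => σ q.1 j * φ q.2 j) (by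
        rintro (m | q) j
        exacts [hφ m j, (h1 _ _).mul (hφ _ _)]) hα (by
        rw [Fintype.card_sum, Fintype.card_prod]; push_cast; linarith)
    have e : ∀ q ∈ s, Function.update σ a τ q = σ q := fun q hq =>
      Function.update_of_ne (fun e : q = a => ha (e ▸ hq)) _ _
    refine ⟨Function.update σ a τ, fun q j => ?_, fun q hq m => ?_, fun q hq q' hq' hne m => ?_⟩
    · by_cases e : q = a
      · rw [e, Function.update_self]; exact h4 j
      · rw [Function.update_of_ne e]; exact h1 q j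
    · rcases mem_insert.1 hq with rfl | hq
      · rw [Function.update_self]; exact h5 (Sum.inl m)
      · rw [e q hq]; exact h2 q hq m
    · rcases mem_insert.1 hq with e1 | e1 <;> rcases mem_insert.1 hq' with e2 | e2
      · exact absurd (e1.trans e2.symm) hne
      · rw [e1, Function.update_self, e q' e2]; exact h5 (Sum.inr (q', m))
      · rw [e2, Function.update_self, e q e1]
        simpa only [mul_left_comm, Sum.elim_inr] using h5 (Sum.inr (q, m))
      · rw [e q e1, e q' e2]; exact h3 q e1 q' e2 hne m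

/-- an Enflo–Davie type sign system -/
structure Lev (J K : Type) [Fintype J] [DecidableEq J] [Fintype K] [DecidableEq K] (α : ℝ) where
  /-- upper signs -/
  p : J × K × Bool → J → ℝ
  /-- lower signs -/
  p' : J × K × Bool → J × K → ℝ
  s : ∀ τ j, Sg (p τ j)
  s' : ∀ τ j, Sg (p' τ j)
  o1 : ∀ i j, ∑ τ, p τ i * p τ j = if i = j then (Fintype.card (J × K × Bool) : ℝ) else 0
  o2 : ∀ i j, ∑ τ, p τ i * p' τ j = 0
  o3 : ∀ i j, ∑ τ, p' τ i * p' τ j = if i = j then (Fintype.card (J × K × Bool) : ℝ) else 0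
  ker : ∀ τ t, |Fintype.card K * ∑ j, p τ j * p t j - ∑ j, p' τ j * p' t j| ≤
    2 * α * Fintype.card (J × K)

theorem exists_lev {J K C F : Type} [Fintype J] [DecidableEq J] [Fintype K] [DecidableEq K]
    [Fintype C] [Fintype F] (hJ : Had J) (hK : Had K) (f : F → J → ℝ) (hf : ∀ q j, Sg (f q j))
    {α : ℝ} (hα : 0 ≤ α)
    (h : 2 * ((1 + 2 * Fintype.card C * Fintype.card K : ℝ) *
      (Fintype.card J * (Fintype.card F + Fintype.card J))) <
        Real.exp (α ^ 2 * Fintype.card J / 2)) :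
    ∃ P : C → Lev J K α, (∀ c τ q, |∑ j, (P c).p τ j * f q j| ≤ α * Fintype.card J) ∧
      ∀ c c', c ≠ c' → ∀ τ t, |∑ j, (P c).p τ j * (P c').p t j| ≤ α * Fintype.card J := by
  obtain ⟨H, h1, h2⟩ := hJ
  obtain ⟨G, h3, h4⟩ := hK
  obtain ⟨σ, h5, h6, h7⟩ := exists_family (Q := C × K × Bool) (M := J × (F ⊕ J))
    (fun m j => H m.1 j * Sum.elim f H m.2 j) (by
      rintro ⟨t, m | m⟩ j
      exacts [(h1 _ _).mul (hf _ _), (h1 _ _).mul (h1 _ _)]) hα (by
      simp only [Fintype.card_sum, Fintype.card_prod, Fintype.card_bool]; push_cast; linarith)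
  have h8 : ∀ q q', q ≠ q' → ∀ t t', |∑ j, σ q j * H t j * (σ q' j * H t' j)| ≤
      α * Fintype.card J := fun q q' e t t' => by
    simpa only [Sum.elim_inr, mul_left_comm, mul_assoc] using h7 q q' e (t, Sum.inr t')
  have key : ∀ c i j (u : K × Bool → ℝ),
      ∑ τ : J × K × Bool, σ (c, τ.2) i * H τ.1 i * (σ (c, τ.2) j * H τ.1 j) * u τ.2 =
        if i = j then Fintype.card J * ∑ θ, u θ else 0 := fun c i j u => by
    rw [Fintype.sum_prod_type_right]
    have : ∀ θ, ∑ t, σ (c, θ) i * H t i * (σ (c, θ) j * H t j) * u θ =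
        σ (c, θ) i * σ (c, θ) j * u θ * ∑ t, H t i * H t j := fun θ => by
      rw [mul_sum]; exact sum_congr rfl fun _ _ => by ring
    simp only [this, h2]
    split_ifs with e
    · simp only [e, (h5 _ _).sq, one_mul]
      rw [← sum_mul, mul_comm]
    · simp
  refine ⟨fun c => ⟨fun τ j => σ (c, τ.2) j * H τ.1 j,
    fun τ j => σ (c, τ.2) j.1 * H τ.1 j.1 * (G τ.2.1 j.2 * sg τ.2.2),
    fun τ j => (h5 _ _).mul (h1 _ _), fun τ j => ((h5 _ _).mul (h1 _ _)).mul ((h3 _ _).mul (sg_sg _)),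
    fun i j => ?_, fun i j => ?_, fun i j => ?_, fun τ t => ?_⟩, fun c τ q => ?_,
    fun c c' e τ t => h8 _ _ (fun e' => e (congrArg Prod.fst e')) _ _⟩
  · simpa using key c i j 1
  · simp only [← mul_assoc _ _ (G _ _ * _), key c i j.1 fun θ => G θ.1 j.2 * sg θ.2]
    simp [Fintype.sum_prod_type, sg]
  · simp only [mul_mul_mul_comm _ (G _ _ * _) _ (G _ _ * _),
      key c i.1 j.1 fun θ => G θ.1 i.2 * sg θ.2 * (G θ.1 j.2 * sg θ.2)]
    simp only [mul_mul_mul_comm _ (sg _) _ (sg _), (sg_sg _).sq, mul_one, Fintype.sum_prod_type,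
      sum_const, ← smul_sum, h4]
    by_cases e1 : i.1 = j.1 <;> by_cases e2 : i.2 = j.2 <;> simp [Prod.ext_iff, e1, e2, mul_comm]
  · have e1 : ∑ j : J × K, σ (c, τ.2) j.1 * H τ.1 j.1 * (G τ.2.1 j.2 * sg τ.2.2) *
        (σ (c, t.2) j.1 * H t.1 j.1 * (G t.2.1 j.2 * sg t.2.2)) =
        (∑ j, σ (c, τ.2) j * H τ.1 j * (σ (c, t.2) j * H t.1 j)) *
          ∑ k, G τ.2.1 k * sg τ.2.2 * (G t.2.1 k * sg t.2.2) := by
      rw [Fintype.sum_prod_type, sum_mul_sum]
      exact sum_congr rfl fun _ _ => sum_congr rfl fun _ _ => by ring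
    rw [e1, mul_comm, ← mul_sub]
    by_cases e : τ.2 = t.2
    · simp only [e, ((h3 _ _).mul (sg_sg _)).sq, sum_const, card_univ, nsmul_eq_mul, mul_one,
        sub_self, mul_zero, abs_zero]
      positivity
    · have e2 : |∑ k, G τ.2.1 k * sg τ.2.2 * (G t.2.1 k * sg t.2.2)| ≤ Fintype.card K :=
        (abs_sum_le_sum_abs _ _).trans_eq (by
          simp only [(((h3 _ _).mul (sg_sg _)).mul ((h3 _ _).mul (sg_sg _))).abs, sum_const,
            card_univ, nsmul_eq_mul, mul_one])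
      rw [abs_mul, Fintype.card_prod]
      refine (mul_le_mul (h8 _ _ (fun e' => e (Prod.ext_iff.1 e').2) _ _)
        ((abs_sub _ _).trans (add_le_add (Nat.abs_cast _).le e2)) (abs_nonneg _)
        (by positivity)).trans_eq ?_
      push_cast; ring
  · simpa only [Sum.elim_inl, mul_assoc] using h6 (c, τ.2) (τ.1, Sum.inl q)

end Crest.Agent.R115
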